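import Crest.Agent.R152.Iface

/-! Row 152, block W (helper13): Fourier transform of a Gaussian with a general form. -/

set_option autoImplicit false
open Matrix Filter MeasureTheory

namespace Crest.Agent.R152

variable {d : ℕ}

theorem gauss_cos_one (w : Fin d → ℝ) :
    ∫ v : Fin d → ℝ, Real.exp (-(v ⬝ᵥ v) / 2) * Real.cos (w ⬝ᵥ v) =
      √(2 * Real.pi) ^ d * Real.exp (-(w ⬝ᵥ w) / 2) := by
  have hb : 0 < (1 / 2 : ℂ).re := by norm_num
  have h1 := GaussianFourier.integral_cexp_neg_mul_sum_add hb fun i : Fin d => (w i : ℂ) * Complex.I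
  have h2 := integral_re (GaussianFourier.integrable_cexp_neg_mul_sum_add hb fun i : Fin d => (w i : ℂ) * Complex.I)
  have e1 : ∀ v : Fin d → ℝ, -(1 / 2 : ℂ) * ∑ i, (v i : ℂ) ^ 2 + ∑ i, (w i : ℂ) * Complex.I * v i =
      ((-(v ⬝ᵥ v) / 2 : ℝ) : ℂ) + ((w ⬝ᵥ v : ℝ) : ℂ) * Complex.I := fun v => by
    simp only [dotProduct]
    push_cast
    rw [Finset.sum_mul]
    congr 1
    · simp only [sq]; ring
    · exact Finset.sum_congr rfl fun i _ => by ring
  have e2 : (∑ i, ((w i : ℂ) * Complex.I) ^ 2) / (4 * (1 / 2)) = ((-(w ⬝ᵥ w) / 2 : ℝ) : ℂ) := by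
    simp only [dotProduct, mul_pow, Complex.I_sq, mul_neg_one, Finset.sum_neg_distrib]
    push_cast
    simp only [sq]; ring
  have e3 : ((Real.pi : ℂ) / (1 / 2)) ^ ((Fintype.card (Fin d) : ℂ) / 2) = ((√(2 * Real.pi) ^ d : ℝ) : ℂ) := by
    rw [Real.sqrt_eq_rpow, ← Real.rpow_natCast, ← Real.rpow_mul (by positivity),
      Complex.ofReal_cpow (by positivity), Fintype.card_fin]
    push_cast
    congr 1 <;> ring
  rw [h1, e2, e3, ← Complex.ofReal_exp, ← Complex.ofReal_mul] at h2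
  simp only [e1, RCLike.re_to_complex, Complex.exp_add, ← Complex.ofReal_exp, Complex.re_ofReal_mul,
    Complex.exp_ofReal_mul_I_re, Complex.ofReal_re] at h2
  exact h2

open scoped MatrixOrder in
theorem gauss_cos {P : Matrix (Fin d) (Fin d) ℝ} (hP : P.PosDef) (z : Fin d → ℝ) :
    ∫ θ : Fin d → ℝ, Real.exp (-(qf P θ) / 2) * Real.cos (z ⬝ᵥ θ) =
      √(2 * Real.pi) ^ d / √P.det * Real.exp (-(qf P⁻¹ z) / 2) := by
  have hd := hP.det_pos
  obtain ⟨B, rfl⟩ := CStarAlgebra.nonneg_iff_eq_star_mul_self.mp hP.posSemidef.nonneg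
  rw [star_eq_conjTranspose, conjTranspose_eq_transpose_of_trivial] at hd ⊢
  rw [det_mul, det_transpose] at hd
  have hB : B.det ≠ 0 := fun h => by simp [h] at hd
  have hu : IsUnit Bᵀ.det := by rw [det_transpose]; exact hB.isUnit
  have e0 : ∀ θ, qf (Bᵀ * B) θ = (B *ᵥ θ) ⬝ᵥ (B *ᵥ θ) := fun θ => by
    rw [qf, ← mulVec_mulVec, dotProduct_mulVec, vecMul_transpose]
  have e1 : ∀ θ, z ⬝ᵥ θ = (Bᵀ⁻¹ *ᵥ z) ⬝ᵥ (B *ᵥ θ) := fun θ => by
    rw [dotProduct_mulVec, ← mulVec_transpose, mulVec_mulVec, mul_nonsing_inv _ hu, one_mulVec]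
  have e2 : qf (Bᵀ * B)⁻¹ z = (Bᵀ⁻¹ *ᵥ z) ⬝ᵥ (Bᵀ⁻¹ *ᵥ z) := by
    rw [qf, Matrix.mul_inv_rev, ← mulVec_mulVec, dotProduct_mulVec, ← mulVec_transpose, transpose_nonsing_inv]
  have h := integral_map (μ := volume) (φ := toLin' B)
    (f := fun v : Fin d → ℝ => Real.exp (-(v ⬝ᵥ v) / 2) * Real.cos ((Bᵀ⁻¹ *ᵥ z) ⬝ᵥ v))
    (LinearMap.continuous_of_finiteDimensional _).measurable.aemeasurable
    (Continuous.aestronglyMeasurable (by fun_prop))
  rw [Real.map_matrix_volume_pi_eq_smul_volume_pi hB, integral_smul_measure, gauss_cos_one,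
    ENNReal.toReal_ofReal (abs_nonneg _)] at h
  simp only [toLin'_apply, ← e0, ← e1] at h
  rw [← h, e2, det_mul, det_transpose, Real.sqrt_mul_self_eq_abs, abs_inv, smul_eq_mul]
  ring

theorem gauss_int {P : Matrix (Fin d) (Fin d) ℝ} (hP : P.PosDef) :
    ∫ θ : Fin d → ℝ, Real.exp (-(qf P θ) / 2) = √(2 * Real.pi) ^ d / √P.det := by
  simpa [qf] using gauss_cos hP 0

theorem gauss_integrable {P : Matrix (Fin d) (Fin d) ℝ} (hP : P.PosDef) :
    Integrable fun θ : Fin d → ℝ => Real.exp (-(qf P θ) / 2) := by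
  refine Integrable.of_integral_ne_zero ?_
  have := hP.det_pos
  rw [gauss_int hP]
  positivity

end Crest.Agent.R152
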