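import Crest.Agent.R152.W.Basic
import Crest.Agent.R152.W.Gauss

/-! Row 152, W2.  Recipe: `p θ = ∑' y, exp (-(qf Q (θ+y))/2)` (use `ENNReal` tsum / lintegral to avoid summability);
`p (θ+x) + p (θ-x) ≥ 2 exp (-(qf Q (x-y))/2) p θ` for every integer `y` (cosh ≥ 1, periodicity), integrate `x` over the unit cube:
each term on the left integrates to `∫_{ℝ^d} exp (-qf Q/2) = sqrt(2π)^d / sqrt (det Q)`; Jensen (or `e^{-t} ≥ e^{-m}(1-(t-m))`).
Trace bound: take `y = round x` coordinatewise, `∫ (x_i - round x_i)(x_j - round x_j) = δ_ij / 12`. -/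

set_option autoImplicit false
open Matrix Filter MeasureTheory

namespace Crest.Agent.R152

theorem WC.par {d : ℕ} (Q : Matrix (Fin d) (Fin d) ℝ) (a w : Fin d → ℝ) :
    2 * (Real.exp (-(qf Q a) / 2) * Real.exp (-(qf Q w) / 2)) ≤
      Real.exp (-(qf Q (a + w)) / 2) + Real.exp (-(qf Q (a - w)) / 2) := by
  have h : qf Q (a + w) + qf Q (a - w) = 2 * qf Q a + 2 * qf Q w := by
    simp only [qf, mulVec_add, mulVec_sub, add_dotProduct, sub_dotProduct, dotProduct_add,
      dotProduct_sub]; ring
  have h1 : Real.exp (-(qf Q a) / 2) * Real.exp (-(qf Q w) / 2) =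
      Real.exp (-(qf Q (a + w)) / 4) * Real.exp (-(qf Q (a - w)) / 4) := by
    rw [← Real.exp_add, ← Real.exp_add]; congr 1; linarith
  have h2 : ∀ t : ℝ, Real.exp (t / 2) = Real.exp (t / 4) ^ 2 := fun t => by
    rw [← Real.exp_nat_mul]; congr 1; push_cast; ring
  rw [h1, h2 (-(qf Q (a + w))), h2 (-(qf Q (a - w)))]
  nlinarith [sq_nonneg (Real.exp (-(qf Q (a + w)) / 4) - Real.exp (-(qf Q (a - w)) / 4))]

theorem stCosh : StCosh := by
  intro d Q hQ θ Y
  set G := √(2 * Real.pi) ^ d / √Q.det with hG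
  have hG0 : 0 < G := by have := hQ.det_pos; positivity
  set S := ∑ y ∈ Y, Real.exp (-(qf Q (θ + rc y)) / 2)
  have hS0 : 0 ≤ S := Finset.sum_nonneg fun _ _ => (Real.exp_pos _).le
  have hI : ∫ z : Fin d → ℝ, Real.exp (-(qf Q z) / 2) = G := by
    have := gauss_cos hQ 0
    simp only [zero_dotProduct, Real.cos_zero, mul_one, qf, neg_zero, zero_div,
      Real.exp_zero] at this
    exact this
  let F : (Fin d → ℝ) → ENNReal := fun z => ENNReal.ofReal (Real.exp (-(qf Q z) / 2))
  have hFm : Measurable F := ENNReal.measurable_ofReal.comp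
    (Real.continuous_exp.comp (((WB.cont Q).neg).div_const 2)).measurable
  have hF : ∫⁻ z, F z = ENNReal.ofReal G := by
    rw [← hI, ofReal_integral_eq_lintegral_ofReal (Integrable.of_integral_ne_zero (by
      rw [hI]; exact hG0.ne')) (Eventually.of_forall fun _ => (Real.exp_pos _).le)]
  have m1 : ∀ y : Fin d → ℤ, Measurable fun x => F (θ + (x + rc y)) := fun y =>
    hFm.comp (by fun_prop)
  have m2 : ∀ y : Fin d → ℤ, Measurable fun x => F (θ - (x + rc y)) := fun y =>
    hFm.comp (by fun_prop)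
  have h1 : ∫⁻ x in Set.Icc (0 : Fin d → ℝ) 1, ∑' y : Fin d → ℤ, F (θ + (x + rc y)) =
      ENNReal.ofReal G := by
    rw [lintegral_tsum fun y => (m1 y).aemeasurable,
      ← FD.lintegral_unfold fun x => F (θ + x), lintegral_add_left_eq_self, hF]
  have h2 : ∫⁻ x in Set.Icc (0 : Fin d → ℝ) 1, ∑' y : Fin d → ℤ, F (θ - (x + rc y)) =
      ENNReal.ofReal G := by
    rw [lintegral_tsum fun y => (m2 y).aemeasurable,
      ← FD.lintegral_unfold fun x => F (θ - x), lintegral_sub_left_eq_self, hF]
  have h3 : ∀ x, ENNReal.ofReal (2 * (S * Real.exp (-(dq Q x) / 2))) ≤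
      ∑' y : Fin d → ℤ, F (θ + (x + rc y)) + ∑' y : Fin d → ℤ, F (θ - (x + rc y)) := fun x => by
    obtain ⟨y0, hy0⟩ := exists_dq_eq hQ x
    rw [← (Equiv.subRight y0).tsum_eq, ← ((Equiv.neg _).trans (Equiv.subRight y0)).tsum_eq
      (fun y => F (θ - (x + rc y)))]
    refine le_trans ?_ (add_le_add (ENNReal.sum_le_tsum Y) (ENNReal.sum_le_tsum Y))
    simp only [F]
    rw [← ENNReal.ofReal_sum_of_nonneg fun _ _ => (Real.exp_pos _).le,
      ← ENNReal.ofReal_sum_of_nonneg fun _ _ => (Real.exp_pos _).le,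
      ← ENNReal.ofReal_add (Finset.sum_nonneg fun _ _ => (Real.exp_pos _).le)
        (Finset.sum_nonneg fun _ _ => (Real.exp_pos _).le), ← Finset.sum_add_distrib, hy0,
      Finset.sum_mul, Finset.mul_sum]
    refine ENNReal.ofReal_le_ofReal (Finset.sum_le_sum fun y _ => ?_)
    have e1 : θ + (x + rc (Equiv.subRight y0 y)) = θ + rc y + (x - rc y0) := by
      rw [Equiv.subRight_apply, FD.rc_sub]; abel
    have e2 : θ - (x + rc (((Equiv.neg _).trans (Equiv.subRight y0)) y)) = θ + rc y - (x - rc y0) := by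
      rw [Equiv.trans_apply, Equiv.subRight_apply, Equiv.neg_apply, FD.rc_sub, FD.rc_neg]; abel
    rw [e1, e2]
    exact WC.par Q _ _
  have h4 := lintegral_mono (μ := volume.restrict (Set.Icc (0 : Fin d → ℝ) 1)) h3
  rw [lintegral_add_left (Measurable.tsum m1), h1, h2,
    ← ENNReal.ofReal_add hG0.le hG0.le] at h4
  have hc : Continuous fun x => Real.exp (-(dq Q x) / 2) :=
    Real.continuous_exp.comp (((continuous_dq hQ).neg).div_const 2)
  rw [← ofReal_integral_eq_lintegral_ofReal
    (((hc.const_mul S).const_mul 2).continuousOn.integrableOn_compact isCompact_Icc)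
    (Eventually.of_forall fun _ => by positivity), ENNReal.ofReal_le_ofReal_iff (by positivity),
    integral_const_mul, integral_const_mul] at h4
  have hv : (volume : Measure (Fin d → ℝ)).real (Set.Icc 0 1) = 1 := by
    rw [Measure.real, FD.volume_cube]; simp
  have h5 : Real.exp (-(gq Q) / 2) ≤ ∫ x in Set.Icc (0 : Fin d → ℝ) 1, Real.exp (-(dq Q x) / 2) := by
    have e1 : ∫ x in Set.Icc (0 : Fin d → ℝ) 1,
        Real.exp (-(gq Q) / 2) * ((1 + gq Q / 2) - dq Q x / 2) = Real.exp (-(gq Q) / 2) := by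
      rw [integral_const_mul, integral_sub (continuous_const.continuousOn.integrableOn_compact isCompact_Icc)
        (((continuous_dq hQ).div_const 2).continuousOn.integrableOn_compact isCompact_Icc),
        setIntegral_const, hv, integral_div, ← gq_eq]
      simp
    rw [← e1]
    refine integral_mono ((continuous_const.mul (continuous_const.sub
      ((continuous_dq hQ).div_const 2))).continuousOn.integrableOn_compact isCompact_Icc)
      (hc.continuousOn.integrableOn_compact isCompact_Icc) fun x => ?_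
    have e2 : Real.exp (-(dq Q x) / 2) = Real.exp (-(gq Q) / 2) * Real.exp (gq Q / 2 - dq Q x / 2) := by
      rw [← Real.exp_add]; congr 1; ring
    simp only
    rw [e2]
    exact mul_le_mul_of_nonneg_left (by linarith [Real.add_one_le_exp (gq Q / 2 - dq Q x / 2)])
      (Real.exp_pos _).le
  have h6 : S * Real.exp (-(gq Q) / 2) ≤ G := by
    have := mul_le_mul_of_nonneg_left h5 hS0
    linarith
  have h7 : Real.exp (-(gq Q) / 2) * Real.exp (gq Q / 2) = 1 := by
    rw [← Real.exp_add, ← Real.exp_zero]; congr 1; ring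
  calc S = S * Real.exp (-(gq Q) / 2) * Real.exp (gq Q / 2) := by rw [mul_assoc, h7, mul_one]
    _ ≤ _ := mul_le_mul_of_nonneg_right h6 (Real.exp_pos _).le

theorem WC.mom {d : ℕ} (i j : Fin d) :
    ∫ x in Set.Icc (0 : Fin d → ℝ) 1, (x i - 1 / 2) * (x j - 1 / 2) = if i = j then 1 / 12 else 0 := by
  have hμ : (volume : Measure (Fin d → ℝ)).restrict (Set.Icc 0 1) =
      Measure.pi fun _ => volume.restrict (Set.Icc (0 : ℝ) 1) := by
    rw [← Set.pi_univ_Icc, volume_pi, Measure.restrict_pi_pi]; rfl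
  have h1 : ∀ x : Fin d → ℝ, (x i - 1 / 2) * (x j - 1 / 2) =
      ∏ l, ((if l = i then x l - 1 / 2 else 1) * (if l = j then x l - 1 / 2 else 1)) := fun x => by
    rw [Finset.prod_mul_distrib]; simp
  have i0 : ∫ _t in Set.Icc (0 : ℝ) 1, (1 : ℝ) = 1 := by simp
  have i1 : ∫ t in Set.Icc (0 : ℝ) 1, (t - 1 / 2) = 0 := by
    rw [integral_Icc_eq_integral_Ioc, ← intervalIntegral.integral_of_le zero_le_one,
      intervalIntegral.integral_comp_sub_right (fun t => t)]
    norm_num
  have i2 : ∫ t in Set.Icc (0 : ℝ) 1, (t - 1 / 2) * (t - 1 / 2) = 1 / 12 := by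
    simp only [← sq]
    rw [integral_Icc_eq_integral_Ioc, ← intervalIntegral.integral_of_le zero_le_one,
      intervalIntegral.integral_comp_sub_right (fun t => t ^ 2)]
    norm_num
  simp only [h1]
  rw [hμ, integral_fintype_prod_eq_prod (fun l (t : ℝ) =>
    (if l = i then t - 1 / 2 else 1) * (if l = j then t - 1 / 2 else 1))]
  split_ifs with h
  · subst h
    rw [Finset.prod_eq_single i (fun l _ hl => by simp [hl]) (by simp)]
    simpa only [if_true] using i2
  · exact Finset.prod_eq_zero (Finset.mem_univ i) (by simpa only [if_true, if_neg h, mul_one] using i1)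

theorem stGtr : StGtr := by
  intro d Q hQ
  rw [gq_eq, ← integral_cube_shift _ (continuous_dq hQ) dq_add_int fun _ => -(1 / 2)]
  have h1 : ∫ x in Set.Icc (0 : Fin d → ℝ) 1, ∑ i, ∑ j, Q i j * ((x i - 1 / 2) * (x j - 1 / 2)) =
      Q.trace / 12 := by
    rw [integral_finsetSum _ fun i _ => Continuous.integrableOn_Icc (by fun_prop), trace,
      Finset.sum_div]
    refine Finset.sum_congr rfl fun i _ => ?_
    rw [integral_finsetSum _ fun i _ => Continuous.integrableOn_Icc (by fun_prop)]
    simp only [integral_const_mul, WC.mom]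
    simp [div_eq_mul_inv]
  rw [← h1]
  refine integral_mono (((continuous_dq hQ).comp
    (continuous_id.add continuous_const)).integrableOn_Icc)
    (Continuous.integrableOn_Icc (by fun_prop)) fun x => (dq_le hQ _ 0).trans (le_of_eq ?_)
  simp only [FD.rc_zero, sub_zero, qf, dotProduct, mulVec, Finset.mul_sum, Pi.add_apply]
  exact Finset.sum_congr rfl fun i _ => Finset.sum_congr rfl fun j _ => by ring

end Crest.Agent.R152
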