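import Crest.Agent.R152.W.Basic
import Crest.Agent.S0390

/-! Row 152, W4.  Recipe: `V Q = {x | ∀ y : ℤ^d, qf Q x ≤ qf Q (x - y)}` is compact, convex, symmetric, a neighbourhood of `0`, a fundamental
domain of `ℤ^d` (ties lie in countably many hyperplanes), so `volume (V Q) = 1` and `gq Q' = ∫_{V Q} dq Q'` for all `Q'`.
Dominated convergence gives `d/de gq (Q+eH) = ∫_{V Q} qf H`.  With `d/de det(Q+eH)^(1/d) = tr (Q⁻¹ H)/d`
we get `⟨Σ, H⟩ ≤ gq Q * tr (Q⁻¹ H)/d` for all symmetric `H`, so `Σ = (gq Q/d) Q⁻¹` (`Σ = covMatrix (V Q)`, centroid `0`), and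
`Crest.Agent.S0390.result` gives `det Σ ≤ 1` (`(d!)² ≤ (d+1)^(d+1) (d+2)^d`). -/

set_option autoImplicit false
open Matrix Filter MeasureTheory Set Topology

namespace Crest.Agent.R152

variable {d : ℕ} {Q : Matrix (Fin d) (Fin d) ℝ}

/-- the Voronoi cell -/
def Vor (Q : Matrix (Fin d) (Fin d) ℝ) : Set (Fin d → ℝ) :=
  {x | ∀ y : Fin d → ℤ, qf Q x ≤ qf Q (x - rc y)}

theorem crit_cont (Q : Matrix (Fin d) (Fin d) ℝ) : Continuous (qf Q) := by
  unfold qf dotProduct mulVec dotProduct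
  fun_prop

theorem crit_symm (hQ : Q.PosDef) : Qᵀ = Q := by
  simpa using hQ.1.eq

theorem crit_sub (hQ : Q.PosDef) (x y : Fin d → ℝ) :
    qf Q (x - y) = qf Q x - 2 * ((y ᵥ* Q) ⬝ᵥ x) + qf Q y := by
  have h : x ⬝ᵥ Q *ᵥ y = y ⬝ᵥ Q *ᵥ x := by
    rw [dotProduct_mulVec, ← mulVec_transpose, crit_symm hQ, dotProduct_comm]
  simp only [qf, mulVec_sub, sub_dotProduct, dotProduct_sub, h, ← dotProduct_mulVec]
  ring

theorem crit_neg (Q : Matrix (Fin d) (Fin d) ℝ) (x : Fin d → ℝ) : qf Q (-x) = qf Q x := by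
  simp [qf, mulVec_neg]

theorem crit_add (Q H : Matrix (Fin d) (Fin d) ℝ) (e : ℝ) (x : Fin d → ℝ) :
    qf (Q + e • H) x = qf Q x + e * qf H x := by
  simp [qf, add_mulVec, smul_mulVec]

theorem crit_rc_zero : rc (0 : Fin d → ℤ) = 0 := by
  ext i
  simp [rc]

theorem crit_tie (hQ : Q.PosDef) {y : Fin d → ℤ} (hy : y ≠ 0) :
    volume {x | qf Q x = qf Q (x - rc y)} = 0 := by
  obtain ⟨c, hc, h⟩ := exists_qf_ge hQ
  have hy' : rc y ≠ 0 := fun h => hy (funext fun i => by simpa [rc] using congrFun h i)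
  have hp : 0 < qf Q (rc y) := lt_of_lt_of_le (by have := norm_pos_iff.2 hy'; positivity) (h _)
  let S : AffineSubspace ℝ (Fin d → ℝ) :=
    { carrier := {x | 2 * ((rc y ᵥ* Q) ⬝ᵥ x) = qf Q (rc y)}
      smul_vsub_vadd_mem' := fun c p₁ p₂ p₃ h₁ h₂ h₃ => by
        simp only [mem_ofPred_eq, vsub_eq_sub, vadd_eq_add, dotProduct_add, dotProduct_smul,
          dotProduct_sub, smul_eq_mul] at h₁ h₂ h₃ ⊢
        linear_combination c * h₁ - c * h₂ + h₃ }
  have hS : S ≠ ⊤ := fun h => by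
    have : (0 : Fin d → ℝ) ∈ S := h ▸ AffineSubspace.mem_top _ _ _
    change 2 * ((rc y ᵥ* Q) ⬝ᵥ 0) = qf Q (rc y) at this
    rw [dotProduct_zero, mul_zero] at this
    exact hp.ne this
  refine measure_mono_null (fun x hx => ?_) (Measure.addHaar_affineSubspace volume S hS)
  change 2 * ((rc y ᵥ* Q) ⬝ᵥ x) = qf Q (rc y)
  rw [mem_ofPred_eq, crit_sub hQ] at hx
  linarith

theorem crit_dq (hQ : Q.PosDef) {x : Fin d → ℝ} (hx : x ∈ Vor Q) : dq Q x = qf Q x :=
  le_antisymm (by simpa [crit_rc_zero] using dq_le hQ x 0) (le_ciInf hx)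

theorem crit_closed (Q : Matrix (Fin d) (Fin d) ℝ) : IsClosed (Vor Q) := by
  rw [Vor, ofPred_forall]
  exact isClosed_iInter fun y => isClosed_le (crit_cont Q)
    ((crit_cont Q).comp (continuous_id.sub continuous_const))

theorem crit_convex (hQ : Q.PosDef) : Convex ℝ (Vor Q) := by
  intro x hx z hz a b ha hb hab y
  have h1 := hx y
  have h2 := hz y
  rw [crit_sub hQ] at h1 h2 ⊢
  simp only [dotProduct_add, dotProduct_smul, smul_eq_mul]
  have h3 : qf Q (rc y) = a * qf Q (rc y) + b * qf Q (rc y) := by rw [← add_mul, hab, one_mul]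
  nlinarith

theorem crit_compact (hQ : Q.PosDef) : IsCompact (Vor Q) := by
  obtain ⟨c, hc, h⟩ := exists_qf_ge hQ
  obtain ⟨M, hM⟩ := (isCompact_Icc (a := (0 : Fin d → ℝ)) (b := 1)).exists_bound_of_continuousOn
    (crit_cont Q).continuousOn
  refine Metric.isCompact_of_isClosed_isBounded (crit_closed Q)
    (isBounded_iff_forall_norm_le.2 ⟨√(M / c), fun x hx => Real.le_sqrt_of_sq_le ?_⟩)
  rw [le_div_iff₀' hc]
  refine (h x).trans ((hx fun i => ⌊x i⌋).trans ((le_abs_self _).trans (hM _ ⟨fun i => ?_, fun i => ?_⟩)))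
  · exact Int.fract_nonneg (x i)
  · exact (Int.fract_lt_one (x i)).le

/-- the integer lattice -/
abbrev Zd (d : ℕ) : AddSubgroup (Fin d → ℝ) :=
  (Submodule.span ℤ (range (Pi.basisFun ℝ (Fin d)))).toAddSubgroup

theorem crit_mem_Zd {g : Fin d → ℝ} : g ∈ Zd d ↔ ∃ y : Fin d → ℤ, rc y = g := by
  rw [Submodule.mem_toAddSubgroup, Module.Basis.mem_span_iff_repr_mem ℤ]
  simp only [Pi.basisFun_repr, mem_range]
  exact ⟨fun h => ⟨fun i => (h i).choose, funext fun i => (h i).choose_spec⟩,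
    fun ⟨y, hy⟩ i => ⟨y i, congrFun hy i⟩⟩

instance crit_countable : Countable (Zd d) :=
  ((countable_range (rc : (Fin d → ℤ) → Fin d → ℝ)).mono fun _ h => crit_mem_Zd.1 h).to_subtype

theorem crit_fund (hQ : Q.PosDef) : IsAddFundamentalDomain (Zd d) (Vor Q) volume := by
  refine IsAddFundamentalDomain.mk'' (crit_closed Q).measurableSet.nullMeasurableSet
    (Eventually.of_forall fun x => ?_) (fun g hg => ?_)
    fun g => (measurePreserving_add_left volume (g : Fin d → ℝ)).quasiMeasurePreserving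
  · obtain ⟨y, hy⟩ := exists_dq_eq hQ x
    refine ⟨⟨rc (-y), crit_mem_Zd.2 ⟨_, rfl⟩⟩, fun z => ?_⟩
    have h1 : rc (-y) + x = x - rc y := by ext i; simp [rc]; ring
    have h2 : x - rc y - rc z = x - rc (y + z) := by ext i; simp [rc]; ring
    change qf Q (rc (-y) + x) ≤ qf Q (rc (-y) + x - rc z)
    rw [h1, h2, ← hy]
    exact dq_le hQ x _
  · obtain ⟨y, hy⟩ := crit_mem_Zd.1 g.2
    have hy0 : y ≠ 0 := fun h => hg (Subtype.ext (by rw [← hy, h, crit_rc_zero]; rfl))
    refine measure_mono_null ?_ (crit_tie hQ hy0)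
    rintro x ⟨⟨z, hz, rfl⟩, hx⟩
    change (g : Fin d → ℝ) + z ∈ Vor Q at hx
    change qf Q ((g : Fin d → ℝ) + z) = qf Q ((g : Fin d → ℝ) + z - rc y)
    refine le_antisymm (hx y) ?_
    have h1 : z - rc (-y) = rc y + z := by ext i; simp [rc]; ring
    rw [← hy, add_sub_cancel_left, ← h1]
    exact hz _

theorem crit_vol (hQ : Q.PosDef) : volume (Vor Q) = 1 := by
  rw [(crit_fund hQ).measure_eq (ZSpan.isAddFundamentalDomain' (Pi.basisFun ℝ (Fin d)) volume),
    ZSpan.fundamentalDomain_pi_basisFun, volume_pi_pi]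
  simp

theorem crit_gq (hQ : Q.PosDef) (Q' : Matrix (Fin d) (Fin d) ℝ) :
    gq Q' = ∫ x in Vor Q, dq Q' x := by
  rw [(crit_fund hQ).setIntegral_eq (ZSpan.isAddFundamentalDomain' (Pi.basisFun ℝ (Fin d)) volume),
    ZSpan.fundamentalDomain_pi_basisFun, gq_eq]
  · exact setIntegral_congr_set Measure.univ_pi_Ico_ae_eq_Icc.symm
  · intro g x
    obtain ⟨y, hy⟩ := crit_mem_Zd.1 g.2
    change dq Q' ((g : Fin d → ℝ) + x) = _
    rw [← hy, add_comm, dq_add_int]

theorem crit_dom (hQ : Q.PosDef) (H : Matrix (Fin d) (Fin d) ℝ) :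
    ∃ C : ℝ, 0 < C ∧ ∀ x, |qf H x| ≤ C * qf Q x := by
  obtain ⟨r, hr, h⟩ := qf_near hQ one_pos
  obtain ⟨M, hM⟩ := Finite.exists_le fun p : Fin d × Fin d => |H p.1 p.2|
  have hp : 0 < |M| + 1 := by positivity
  refine ⟨(|M| + 1) / r, by positivity, fun x => ?_⟩
  have h1 := h (Q + (r / (|M| + 1)) • H) (fun i j => by
    rw [Matrix.add_apply, add_sub_cancel_left, Matrix.smul_apply, smul_eq_mul, abs_mul,
      abs_of_pos (by positivity), div_mul_eq_mul_div, div_le_iff₀ hp]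
    have := (hM (i, j)).trans (le_abs_self M)
    nlinarith) x
  rw [crit_add] at h1
  rw [div_mul_eq_mul_div, le_div_iff₀ hr, ← div_le_iff₀' hp, mul_div_assoc, mul_comm,
    ← abs_of_pos (show 0 < r / (|M| + 1) by positivity), ← abs_mul, abs_le]
  constructor <;> linarith [h1.1, h1.2]

theorem crit_ev (hQ : Q.PosDef) (H : Matrix (Fin d) (Fin d) ℝ) {x : Fin d → ℝ} (hx : x ∈ Vor Q)
    (hs : ∀ y : Fin d → ℤ, y ≠ 0 → qf Q x ≠ qf Q (x - rc y)) :
    ∀ᶠ e : ℝ in 𝓝 0, ∀ y : Fin d → ℤ, qf (Q + e • H) x ≤ qf (Q + e • H) (x - rc y) := by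
  obtain ⟨c, hc, h⟩ := exists_qf_ge hQ
  obtain ⟨C, hC, hH⟩ := crit_dom hQ H
  have hF : {y : Fin d → ℤ | qf Q (x - rc y) ≤ 3 * qf Q x}.Finite := by
    set R := ‖x‖ + √(3 * qf Q x / c)
    refine (finite_Icc (fun _ => -⌈R⌉) fun _ => ⌈R⌉).subset fun y hy => ?_
    have h1 : ‖x - rc y‖ ≤ √(3 * qf Q x / c) :=
      Real.le_sqrt_of_sq_le (by rw [le_div_iff₀' hc]; exact (h _).trans hy)
    have h2 : ∀ i, |y i| ≤ ⌈R⌉ := fun i => by
      have h3 : |(y i : ℝ)| ≤ R := (norm_le_pi_norm (rc y) i).trans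
        ((norm_le_insert x (rc y)).trans (add_le_add le_rfl h1))
      exact_mod_cast h3.trans (Int.le_ceil R)
    exact ⟨fun i => (abs_le.1 (h2 i)).1, fun i => (abs_le.1 (h2 i)).2⟩
  have h1 : ∀ᶠ e : ℝ in 𝓝 0, ∀ y ∈ {y : Fin d → ℤ | qf Q (x - rc y) ≤ 3 * qf Q x},
      qf (Q + e • H) x ≤ qf (Q + e • H) (x - rc y) := by
    refine (eventually_all_finite hF).2 fun y _ => ?_
    rcases eq_or_ne y 0 with rfl | hy
    · simp [crit_rc_zero]
    simp only [crit_add]
    refine (ContinuousAt.eventually_lt (by fun_prop) (by fun_prop) ?_).mono fun e he => he.le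
    simpa using lt_of_le_of_ne (hx y) (hs y hy)
  have h2 : ∀ᶠ e : ℝ in 𝓝 0, |e| * C < 1 / 2 :=
    ContinuousAt.eventually_lt (by fun_prop) continuousAt_const (by simp)
  filter_upwards [h1, h2] with e h1 h2 y
  by_cases hy : qf Q (x - rc y) ≤ 3 * qf Q x
  · exact h1 y hy
  have h3 : ∀ z, |e * qf H z| ≤ 1 / 2 * qf Q z := fun z => by
    rw [abs_mul]
    refine (mul_le_mul_of_nonneg_left (hH z) (abs_nonneg e)).trans ?_
    rw [← mul_assoc]
    exact mul_le_mul_of_nonneg_right h2.le (qf_nonneg hQ z)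
  simp only [crit_add]
  linarith [abs_le.1 (h3 x), abs_le.1 (h3 (x - rc y))]

theorem crit_deriv (hQ : Q.PosDef) (H : Matrix (Fin d) (Fin d) ℝ) :
    Tendsto (fun e : ℝ => e⁻¹ * (gq (Q + e • H) - gq Q)) (𝓝[>] 0) (𝓝 (∫ x in Vor Q, qf H x)) := by
  obtain ⟨C, hC, hH⟩ := crit_dom hQ H
  have hK := crit_compact hQ
  have hm := (crit_closed Q).measurableSet
  have hme : ∀ Q' : Matrix (Fin d) (Fin d) ℝ, Measurable (dq Q') := fun Q' =>
    Measurable.iInf fun y => ((crit_cont Q').comp (continuous_id.sub continuous_const)).measurable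
  have hi : IntegrableOn (qf Q) (Vor Q) := (crit_cont Q).continuousOn.integrableOn_compact hK
  have hlo : ∀ e ∈ Ioo 0 C⁻¹, ∀ z, (1 - e * C) * qf Q z ≤ qf (Q + e • H) z := fun e he z => by
    rw [crit_add]
    nlinarith [abs_le.1 (hH z), he.1]
  have hpos : ∀ e ∈ Ioo 0 C⁻¹, 0 ≤ 1 - e * C := fun e he => by
    have := he.2
    rw [← one_div, lt_div_iff₀ hC] at this
    linarith
  have hle : ∀ e ∈ Ioo 0 C⁻¹, ∀ x, dq (Q + e • H) x ≤ qf (Q + e • H) x := fun e he x => by
    have := ciInf_le (f := fun y : Fin d → ℤ => qf (Q + e • H) (x - rc y)) ⟨0, by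
      rintro _ ⟨y, rfl⟩
      exact (mul_nonneg (hpos e he) (qf_nonneg hQ _)).trans (hlo e he _)⟩ 0
    rwa [crit_rc_zero, sub_zero] at this
  have hb : ∀ e ∈ Ioo 0 C⁻¹, ∀ x ∈ Vor Q, ‖e⁻¹ * (dq (Q + e • H) x - dq Q x)‖ ≤ C * qf Q x := by
    intro e he x hx
    have h1 : (1 - e * C) * qf Q x ≤ dq (Q + e • H) x := le_ciInf fun y =>
      (mul_le_mul_of_nonneg_left (hx y) (hpos e he)).trans (hlo e he _)
    have h2 := hle e he x
    rw [crit_add] at h2
    rw [norm_mul, norm_inv, Real.norm_of_nonneg he.1.le, inv_mul_le_iff₀ he.1, crit_dq hQ hx,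
      Real.norm_eq_abs, abs_le]
    constructor <;> nlinarith [abs_le.1 (hH x), he.1]
  have hI := Ioo_mem_nhdsGT (inv_pos.2 hC)
  have hms : ∀ e : ℝ, AEStronglyMeasurable (fun x => e⁻¹ * (dq (Q + e • H) x - dq Q x))
      (volume.restrict (Vor Q)) := fun e =>
    (((hme _).sub (hme _)).const_mul _).aestronglyMeasurable
  refine (tendsto_integral_filter_of_dominated_convergence (fun x => C * qf Q x)
    (Eventually.of_forall hms) ?_ (hi.const_mul C) ?_).congr' ?_
  · filter_upwards [hI] with e he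
    filter_upwards [ae_restrict_mem hm] with x hx using hb e he x hx
  · have h0 : ∀ᵐ x, ∀ y : Fin d → ℤ, y ≠ 0 → qf Q x ≠ qf Q (x - rc y) := by
      refine ae_all_iff.2 fun y => ?_
      rcases eq_or_ne y 0 with rfl | hy
      · simp
      · filter_upwards [compl_mem_ae_iff.2 (crit_tie hQ hy)] with x hx _ using hx
    filter_upwards [ae_restrict_mem hm, ae_restrict_of_ae h0] with x hx hs
    refine tendsto_const_nhds.congr' ?_
    filter_upwards [hI, (crit_ev hQ H hx hs).filter_mono nhdsWithin_le_nhds] with e he h1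
    rw [le_antisymm (hle e he x) (le_ciInf h1), crit_dq hQ hx, crit_add, add_sub_cancel_left,
      inv_mul_cancel_left₀ he.1.ne']
  · filter_upwards [hI] with e he
    have h1 : IntegrableOn (dq Q) (Vor Q) := hi.congr_fun (fun x hx => (crit_dq hQ hx).symm) hm
    have h2 : IntegrableOn (fun x => e⁻¹ * (dq (Q + e • H) x - dq Q x)) (Vor Q) :=
      (hi.const_mul C).mono' (hms e) ((ae_restrict_mem hm).mono (hb e he))
    have h3 : IntegrableOn (dq (Q + e • H)) (Vor Q) :=
      ((h2.const_mul e).add h1).congr (Eventually.of_forall fun x => by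
        simp only [Pi.add_apply, mul_inv_cancel_left₀ he.1.ne', sub_add_cancel])
    rw [integral_const_mul, integral_sub h3 h1, ← crit_gq hQ, ← crit_gq hQ]

theorem crit_det (hdet : Q.det = 1) (H : Matrix (Fin d) (Fin d) ℝ) :
    HasDerivAt (fun e : ℝ => (Q + e • H).det) (trace (Q⁻¹ * H)) 0 := by
  have hu : IsUnit Q.det := by rw [hdet]; exact isUnit_one
  have h1 : ∀ e : ℝ, (Q + e • H).det = (1 + e • (Q⁻¹ * H)).det := fun e => by
    rw [← one_mul (1 + e • (Q⁻¹ * H)).det, ← hdet, ← det_mul, Matrix.mul_add, Matrix.mul_one,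
      Matrix.mul_smul, mul_nonsing_inv_cancel_left _ _ hu]
  set P := (det (1 + (Polynomial.X : Polynomial ℝ) • (Q⁻¹ * H).map Polynomial.C)).divX.divX
  have h2 := (((hasDerivAt_id (0 : ℝ)).const_mul (trace (Q⁻¹ * H))).const_add 1).add
    ((P.hasDerivAt 0).mul (hasDerivAt_pow 2 (0 : ℝ)))
  refine (h2.congr_deriv (by simp)).congr_of_eventuallyEq (Eventually.of_forall fun e => ?_)
  beta_reduce
  rw [h1, det_one_add_smul]
  rfl

theorem stGcrit : StGcrit := by
  intro d Q hd hQ hdet hmax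
  have hd0 : (0 : ℝ) < d := by exact_mod_cast hd
  have hK := crit_compact hQ
  have h1 : ∀ H : Matrix (Fin d) (Fin d) ℝ, H.IsSymm →
      ∫ x in Vor Q, qf H x ≤ gq Q / d * trace (Q⁻¹ * H) := by
    intro H hH
    have h2 := (((crit_det hdet H).rpow_const (p := 1 / (d : ℝ))
      (Or.inl (by simp [hdet]))).const_mul (gq Q)).tendsto_slope_zero_right
    simp only [zero_smul, add_zero, hdet, Real.one_rpow, mul_one, zero_add, smul_eq_mul] at h2
    rw [show gq Q / d * trace (Q⁻¹ * H) = gq Q * (trace (Q⁻¹ * H) * (1 / d)) by ring]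
    refine le_of_tendsto_of_tendsto (crit_deriv hQ H) h2 ?_
    filter_upwards [hmax H hH, self_mem_nhdsWithin] with e he he0
    exact mul_le_mul_of_nonneg_left (sub_le_sub_right he _) (inv_nonneg.2 (le_of_lt he0))
  have h2 : ∀ H : Matrix (Fin d) (Fin d) ℝ, H.IsSymm →
      ∫ x in Vor Q, qf H x = gq Q / d * trace (Q⁻¹ * H) := by
    intro H hH
    refine le_antisymm (h1 H hH) ?_
    have h3 := h1 (-H) hH.neg
    simp only [qf, neg_mulVec, dotProduct_neg, integral_neg, Matrix.mul_neg, trace_neg] at h3 ⊢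
    linarith
  have h3 : ∀ i, Crest.GeometryTopology.Isotropic.centroid (Vor Q) i = 0 := by
    intro i
    have h4 : (Neg.neg : (Fin d → ℝ) → Fin d → ℝ) ⁻¹' Vor Q = Vor Q := by
      have h5 : ∀ x ∈ Vor Q, -x ∈ Vor Q := fun x hx y => by
        have h6 : -x - rc y = -(x - rc (-y)) := by ext i; simp [rc]; ring
        rw [h6, crit_neg, crit_neg]
        exact hx _
      ext x
      exact ⟨fun h => by simpa using h5 _ h, h5 x⟩
    have h5 := (Measure.measurePreserving_neg (volume : Measure (Fin d → ℝ))).setIntegral_preimage_emb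
      (Homeomorph.neg _).measurableEmbedding (fun x => x i) (Vor Q)
    simp only [h4, Pi.neg_apply, integral_neg] at h5
    rw [Crest.GeometryTopology.Isotropic.centroid, show ∫ x in Vor Q, x i = 0 by linarith, zero_div]
  have h4 : Crest.GeometryTopology.Isotropic.covMatrix (Vor Q) = (gq Q / d) • Q⁻¹ := by
    ext i j
    have h5 := h2 (Matrix.single i j 1 + Matrix.single j i 1) (by
      rw [Matrix.IsSymm, transpose_add, transpose_single, transpose_single, add_comm])
    have h6 : ∀ x : Fin d → ℝ, qf (Matrix.single i j 1 + Matrix.single j i 1) x = 2 * (x i * x j) := by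
      intro x
      simp [qf, add_mulVec, single_mulVec, dotProduct, Function.update_apply, mul_add,
        Finset.sum_add_distrib]
      ring
    have h7 : Q⁻¹ j i = Q⁻¹ i j := by
      rw [← transpose_apply Q⁻¹ i j, transpose_nonsing_inv, crit_symm hQ]
    simp only [h6, integral_const_mul, Matrix.mul_add, trace_add, trace_mul_single, h7] at h5
    simp only [Crest.GeometryTopology.Isotropic.covMatrix, of_apply, h3, sub_zero, crit_vol hQ,
      ENNReal.toReal_one, div_one, Matrix.smul_apply, smul_eq_mul]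
    simp at h5
    linarith
  have h5 : (interior (Vor Q)).Nonempty := by
    rw [(crit_convex hQ).interior_nonempty_iff_affineSpan_eq_top]
    by_contra h
    have := measure_mono_null (subset_affineSpan ℝ (Vor Q))
      (Measure.addHaar_affineSubspace volume _ h)
    rw [crit_vol hQ] at this
    exact one_ne_zero this
  have h6 := (S0390.result d hd _ hK (crit_convex hQ) h5).1
  rw [h4, det_smul, det_nonsing_inv, hdet, crit_vol hQ] at h6
  simp only [Fintype.card_fin, Ring.inverse_one, mul_one, ENNReal.toReal_one, one_pow] at h6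
  have h7 : (d.factorial : ℝ) ≤ (d : ℝ) ^ d := by exact_mod_cast Nat.factorial_le_pow d
  have h8 : (d : ℝ) ^ d ≤ ((d : ℝ) + 1) ^ (d + 1) :=
    (pow_le_pow_left₀ hd0.le (by linarith) d).trans (pow_le_pow_right₀ (by linarith) (by omega))
  have h9 : (d : ℝ) ^ d ≤ ((d : ℝ) + 2) ^ d := pow_le_pow_left₀ hd0.le (by linarith) d
  have h10 : (d.factorial : ℝ) ^ 2 ≤ ((d : ℝ) + 1) ^ (d + 1) * ((d : ℝ) + 2) ^ d := by
    rw [sq]
    exact mul_le_mul (h7.trans h8) (h7.trans h9) (by positivity) (by positivity)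
  have h11 : (gq Q / d) ^ d ≤ 1 := by
    rw [mul_assoc] at h6
    exact le_of_mul_le_mul_right (by rw [one_mul]; exact h6.trans h10) (by positivity)
  rwa [pow_le_one_iff_of_nonneg (div_nonneg (gq_nonneg hQ) hd0.le) (by omega),
    div_le_one hd0] at h11

end Crest.Agent.R152
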