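import Crest.Agent.R152.W.Basic
import Crest.Agent.R152.SLGram

/-! Row 152, W5.  Recipe: strong induction on `d`.  (i) SPLIT: if for every `η>0` some `P` of rank `0<k<d` has `det (PᵀQP) ≤ 1+η`: pass to the primitive
closure of the columns (its determinant is smaller, `≥ 1`), extend to a unimodular `U`, `Q' = UᵀQU = fromBlocks A B Bᵀ D`, `S = D - Bᵀ A⁻¹ B`; `Slope A 1`,
`Slope ((1+η) • S) 1` (`det` on `(P, P' P₂)` is `det A * det (P₂ᵀ S P₂)`), `qf Q'⁻¹ x = qf A⁻¹ x₁ + qf S⁻¹ (x₂ - Bᵀ A⁻¹ x₁)`; so `gq Q⁻¹ ≤ k + (1+η)(d-k)`.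
(ii) for `det Q = 1`: the sup of `gq Q⁻¹` over `{Slope Q 1, det Q = 1}` is attained (hHB with `s=T=1` + hI: compact set of matrices with bounded entries, closed conditions,
continuity from `qf_near`, `gq_mono`, `gq_smul`); at the maximiser either (i) or the point is interior and hCrit applies to `Q⁻¹`
(normalise `Q⁻¹+eH` by `det^(-1/d)`).  (iii) general `Q`: scale down by `a = inf` until (i) or `det = 1`. -/

set_option autoImplicit false
open Matrix Filter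

namespace Crest.Agent.R152

open Function Topology

section gen
variable {ι κ μ : Type} [Fintype ι] [DecidableEq ι] [Fintype κ] [DecidableEq κ] [Fintype μ]
  [DecidableEq μ]

omit [Fintype ι] [DecidableEq ι] [DecidableEq κ] [Fintype μ] [DecidableEq μ] in
theorem gle_rm_mul (A : Matrix ι κ ℤ) (B : Matrix κ μ ℤ) : rm (A * B) = rm A * rm B := by
  ext i j; simp [rm, Matrix.mul_apply]

theorem gle_rm_det (U : Matrix ι ι ℤ) : (rm U).det = (U.det : ℝ) :=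
  ((Int.castRingHom ℝ).map_det U).symm

omit [Fintype ι] [DecidableEq ι] [DecidableEq κ] in
theorem gle_li (P : Matrix ι κ ℤ) :
    LinearIndependent ℝ (fun j => rc (Pᵀ j)) ↔ Injective (rm P).mulVec := by
  rw [mulVec_injective_iff]; rfl

theorem gle_det_sq {P : Matrix ι ι ℤ} (hP : Injective (rm P).mulVec) : 1 ≤ (rm P).det ^ 2 := by
  have h := (isUnit_iff_isUnit_det _).1 (mulVec_injective_iff_isUnit.1 hP)
  rw [gle_rm_det] at h ⊢
  have h1 : P.det ≠ 0 := by exact_mod_cast h.ne_zero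
  exact_mod_cast (one_le_sq_iff_one_le_abs _).2 (Int.one_le_abs h1)

theorem gle_det_conj (Q R : Matrix ι ι ℝ) : (Rᵀ * Q * R).det = R.det ^ 2 * Q.det := by
  rw [det_mul, det_mul, det_transpose]; ring

omit [DecidableEq ι] [DecidableEq κ] in
theorem gle_pd {Q : Matrix ι ι ℝ} (hQ : Q.PosDef) {R : Matrix ι κ ℝ} (hR : Injective R.mulVec) :
    (Rᵀ * Q * R).PosDef := by simpa using hQ.conjTranspose_mul_mul_same hR

/-- `Slope Q 1` for arbitrary index types -/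
def Sl (Q : Matrix ι ι ℝ) : Prop := ∀ (κ : Type) [Fintype κ] [DecidableEq κ] (P : Matrix ι κ ℤ),
  Injective (rm P).mulVec → 1 ≤ ((rm P)ᵀ * Q * rm P).det

theorem sl_iff {d : ℕ} {Q : Matrix (Fin d) (Fin d) ℝ} : Sl Q ↔ Slope Q 1 := by
  refine ⟨fun h k P hP => by simpa using h _ P ((gle_li P).1 hP), fun h κ _ _ P hP => ?_⟩
  have := h _ (P.submatrix id (Fintype.equivFin κ).symm)
    (((gle_li P).2 hP).comp _ (Fintype.equivFin κ).symm.injective)
  rw [one_pow] at this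
  exact this.trans_eq (det_submatrix_equiv_self (Fintype.equivFin κ).symm ((rm P)ᵀ * Q * rm P))

omit [DecidableEq ι] [DecidableEq κ] in
theorem Sl.conj {Q : Matrix ι ι ℝ} (h : Sl Q) {W : Matrix ι κ ℤ} (hW : Injective (rm W).mulVec) :
    Sl ((rm W)ᵀ * Q * rm W) := fun μ _ _ P hP => by
  have := h μ (W * P) (by
    intro x y hxy
    rw [gle_rm_mul, ← mulVec_mulVec, ← mulVec_mulVec] at hxy
    exact hP (hW hxy))
  simpa only [gle_rm_mul, transpose_mul, Matrix.mul_assoc] using this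

omit [Fintype κ] [DecidableEq κ] in
theorem gle_sub (Q : Matrix ι ι ℝ) (e : κ → ι) : (rm ((1 : Matrix ι ι ℤ).submatrix id e))ᵀ * Q *
    rm ((1 : Matrix ι ι ℤ).submatrix id e) = Q.submatrix e e := by
  ext i j; simp [rm, Matrix.mul_apply, one_apply]

theorem Sl.submatrix {Q : Matrix ι ι ℝ} (h : Sl Q) {e : κ → ι} (he : Injective e) :
    Sl (Q.submatrix e e) := by
  rw [← gle_sub]
  refine h.conj fun x y hxy => funext fun j => ?_
  simpa [rm, mulVec, dotProduct, one_apply, he.eq_iff] using congrFun hxy (e j)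

theorem Sl.one_le {Q : Matrix ι ι ℝ} (h : Sl Q) : 1 ≤ Q.det := by
  have h1 : rm (1 : Matrix ι ι ℤ) = 1 := by ext i j; simp [rm, one_apply]
  have := h ι 1 (by rw [h1]; intro x y; simp)
  simpa [h1] using this

/-- the Schur complement -/
theorem Sl.schur {A : Matrix ι ι ℝ} {B : Matrix ι κ ℝ} {D : Matrix κ κ ℝ} (hA : A.PosDef)
    (hM : (fromBlocks A B Bᵀ D).PosDef) (h : Sl (fromBlocks A B Bᵀ D)) {t : ℝ} (ht : A.det ≤ t)
    (ht1 : 1 ≤ t) : (D - Bᵀ * A⁻¹ * B).PosDef ∧ Sl (t • (D - Bᵀ * A⁻¹ * B)) := by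
  have := hA.isUnit.invertible
  have hS : (D - Bᵀ * A⁻¹ * B).PosDef := by
    have h1 : (D - Bᵀ * A⁻¹ * B).PosSemidef := by
      simpa using (PosDef.fromBlocks₁₁ B D hA).1 (by simpa using hM.posSemidef)
    refine h1.posDef_iff_det_ne_zero.2 fun h0 => ?_
    have h2 := hM.det_pos
    rw [det_fromBlocks₁₁, invOf_eq_nonsing_inv, h0, mul_zero] at h2
    exact h2.false
  refine ⟨hS, fun μ _ _ P hP => ?_⟩
  have h1 : rm (fromBlocks 1 0 0 P : Matrix (ι ⊕ κ) (ι ⊕ μ) ℤ) = fromBlocks 1 0 0 (rm P) := by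
    ext (i | i) (j | j) <;> simp [rm, one_apply]
  have h2 := h _ (fromBlocks 1 0 0 P) (by
    rw [h1]
    intro x y hxy
    simp only [fromBlocks_mulVec, one_mulVec, zero_mulVec, add_zero, zero_add] at hxy
    funext i
    rcases i with i | i
    · exact congrFun hxy (.inl i)
    · exact congrFun (hP (funext fun j => congrFun hxy (.inr j))) i)
  rw [h1, fromBlocks_transpose, fromBlocks_multiply, fromBlocks_multiply] at h2
  simp only [transpose_one, transpose_zero, Matrix.one_mul, Matrix.mul_one, Matrix.zero_mul,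
    Matrix.mul_zero, add_zero, zero_add] at h2
  rw [det_fromBlocks₁₁, invOf_eq_nonsing_inv] at h2
  have h3 : (rm P)ᵀ * D * rm P - (rm P)ᵀ * Bᵀ * A⁻¹ * (B * rm P) =
      (rm P)ᵀ * (D - Bᵀ * A⁻¹ * B) * rm P := by
    simp only [Matrix.mul_sub, Matrix.sub_mul, Matrix.mul_assoc]
  rw [h3] at h2
  rw [Matrix.mul_smul, Matrix.smul_mul, det_smul]
  rcases isEmpty_or_nonempty μ with hμ | hμ
  · simp
  · exact h2.trans (mul_le_mul_of_nonneg_right
      (ht.trans (le_self_pow₀ ht1 Fintype.card_ne_zero)) (gle_pd hS hP).det_pos.le)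

end gen

theorem gle_ext {k m : ℕ} (P : Matrix (Fin (k + m)) (Fin k) ℤ) (hP : Injective (rm P).mulVec) :
    ∃ U : Matrix (Fin (k + m)) (Fin (k + m)) ℤ, IsUnit U.det ∧
      ∃ N : Matrix (Fin k) (Fin k) ℤ, P = U.submatrix id (Fin.castAdd m) * N := by
  have h1 : LinearIndependent ℤ Pᵀ := by
    refine mulVec_injective_iff.1 fun x y hxy => ?_
    have h2 : (rm P).mulVec (rc x) = (rm P).mulVec (rc y) := by
      funext i
      have := congrArg (fun z : ℤ => (z : ℝ)) (congrFun hxy i)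
      simpa [rm, rc, mulVec, dotProduct] using this
    funext i
    simpa [rc] using congrFun (hP h2) i
  obtain ⟨n, s⟩ := (Submodule.span ℤ (Set.range Pᵀ)).smithNormalForm (Pi.basisFun ℤ (Fin (k + m)))
  obtain rfl : n = k := by
    simpa using (Module.finrank_eq_card_basis s.bN).symm.trans (finrank_span_eq_card h1)
  obtain ⟨σ, hσ⟩ := Equiv.Perm.exists_extending_pair _ _ (Fin.castAdd_injective n m) s.f.injective
  refine ⟨(Pi.basisFun ℤ _).toMatrix (s.bM.reindex σ.symm), ?_,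
    of fun i j => s.bN.repr ⟨Pᵀ j, Submodule.subset_span ⟨j, rfl⟩⟩ i * s.a i, ?_⟩
  · rw [← Module.Basis.det_apply]; exact Module.Basis.isUnit_det _ _
  · ext i j
    have h2 := congrFun (congrArg Subtype.val
      (s.bN.sum_repr ⟨Pᵀ j, Submodule.subset_span ⟨j, rfl⟩⟩)) i
    simp only [AddSubmonoidClass.coe_finsetSum, SetLike.val_smul, s.snf, Finset.sum_apply,
      Pi.smul_apply, smul_eq_mul, transpose_apply] at h2
    rw [← h2, Matrix.mul_apply]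
    refine Finset.sum_congr rfl fun l _ => ?_
    simp [Module.Basis.toMatrix_apply, hσ]
    ring

variable {d : ℕ} {Q : Matrix (Fin d) (Fin d) ℝ}

theorem gle_conj (hI : StGinv) (hQ : Q.PosDef) {U : Matrix (Fin d) (Fin d) ℤ} (hU : IsUnit U.det) :
    Injective (rm U).mulVec ∧ ((rm U)ᵀ * Q * rm U).det = Q.det ∧
      gq ((rm U)ᵀ * Q * rm U)⁻¹ = gq Q⁻¹ := by
  have h1 : IsUnit (rm U).det := by rw [gle_rm_det]; exact hU.map (Int.castRingHom ℝ)
  have h2 : Injective (rm U).mulVec := mulVec_injective_iff_isUnit.2 ((isUnit_iff_isUnit_det _).2 h1)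
  refine ⟨h2, ?_, ?_⟩
  · rw [gle_det_conj, gle_rm_det]
    rcases Int.isUnit_iff.1 hU with h | h <;> simp [h]
  · rw [← hI d _ (gle_pd hQ h2).inv Uᵀ (by rwa [det_transpose])]
    congr 1
    change (rm U)ᵀᵀ * _ * (rm U)ᵀ = _
    rw [transpose_transpose, Matrix.mul_inv_rev, Matrix.mul_inv_rev, mul_nonsing_inv_cancel_left _ _ h1,
      nonsing_inv_mul_cancel_right _ _ (by rwa [det_transpose])]

theorem gle_inv_smul (hQ : Q.PosDef) {t : ℝ} (ht : 0 < t) : (t • Q)⁻¹ = t⁻¹ • Q⁻¹ :=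
  inv_eq_left_inv (by
    rw [smul_mul_smul_comm, inv_mul_cancel₀ ht.ne', one_smul,
      nonsing_inv_mul _ hQ.det_pos.ne'.isUnit])

theorem gle_split0 (hB : StGblock) {k m : ℕ} {Q : Matrix (Fin (k + m)) (Fin (k + m)) ℝ}
    (ik : ∀ Q : Matrix (Fin k) (Fin k) ℝ, Q.PosDef → Slope Q 1 → gq Q⁻¹ ≤ k)
    (im : ∀ Q : Matrix (Fin m) (Fin m) ℝ, Q.PosDef → Slope Q 1 → gq Q⁻¹ ≤ m)
    (hQ : Q.PosDef) (hS : Sl Q) {t : ℝ} (ht1 : 1 ≤ t)
    (ht : (Q.submatrix (Fin.castAdd m) (Fin.castAdd m)).det ≤ t) : gq Q⁻¹ ≤ k + t * m := by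
  set A := Q.submatrix (Fin.castAdd m) (Fin.castAdd m) with hAd
  set B := Q.submatrix (Fin.castAdd m) (Fin.natAdd k) with hBd
  set D := Q.submatrix (Fin.natAdd k) (Fin.natAdd k) with hDd
  have hs : ∀ i j, Q i j = Q j i := fun i j => by simpa using hQ.1.apply j i
  have hM : Q.submatrix finSumFinEquiv finSumFinEquiv = fromBlocks A B Bᵀ D := by
    ext (i | i) (j | j) <;> simp [hAd, hBd, hDd]
    exact hs _ _
  have hA : A.PosDef := hQ.submatrix (Fin.castAdd_injective k m)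
  obtain ⟨h1, h2⟩ := Sl.schur hA (hM ▸ hQ.submatrix finSumFinEquiv.injective)
    (hM ▸ hS.submatrix finSumFinEquiv.injective) ht ht1
  have h3 := ik A hA (sl_iff.1 (hS.submatrix (Fin.castAdd_injective k m)))
  have h4 := im _ (h1.smul (by linarith)) (sl_iff.1 h2)
  rw [gle_inv_smul h1 (by linarith), gq_smul h1.inv (by positivity),
    inv_mul_le_iff₀ (by linarith)] at h4
  refine (hB k m _ _ (Bᵀ * A⁻¹) _ hA.inv h1.inv hQ.inv fun x => ?_).trans (add_le_add h3 h4)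
  obtain ⟨w, rfl⟩ : ∃ w, x = Q *ᵥ w :=
    ⟨Q⁻¹ *ᵥ x, by rw [mulVec_mulVec, mul_nonsing_inv _ hQ.det_pos.ne'.isUnit, one_mulVec]⟩
  set w1 : Fin k → ℝ := fun i => w (Fin.castAdd m i) with hw1
  set w2 : Fin m → ℝ := fun i => w (Fin.natAdd k i) with hw2
  have e1 : (fun i => (Q *ᵥ w) (Fin.castAdd m i)) = A *ᵥ w1 + B *ᵥ w2 := by
    funext i; simp [mulVec, dotProduct, Fin.sum_univ_add, hAd, hBd, hw1, hw2]
  have e2 : (fun i => (Q *ᵥ w) (Fin.natAdd k i)) = Bᵀ *ᵥ w1 + D *ᵥ w2 := by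
    funext i; simp [mulVec, dotProduct, Fin.sum_univ_add, hDd, hBd, hw1, hw2, hs (Fin.natAdd k i)]
  have e3 : A⁻¹ *ᵥ (A *ᵥ w1 + B *ᵥ w2) = w1 + A⁻¹ *ᵥ (B *ᵥ w2) := by
    rw [mulVec_add, mulVec_mulVec, nonsing_inv_mul _ hA.det_pos.ne'.isUnit, one_mulVec]
  have e4 : Bᵀ *ᵥ w1 + D *ᵥ w2 - (Bᵀ * A⁻¹) *ᵥ (A *ᵥ w1 + B *ᵥ w2) = (D - Bᵀ * A⁻¹ * B) *ᵥ w2 := by
    rw [← mulVec_mulVec, e3, mulVec_add, sub_mulVec, ← mulVec_mulVec, ← mulVec_mulVec]; abel
  have e5 : (D - Bᵀ * A⁻¹ * B)⁻¹ *ᵥ ((D - Bᵀ * A⁻¹ * B) *ᵥ w2) = w2 := by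
    rw [mulVec_mulVec, nonsing_inv_mul _ h1.det_pos.ne'.isUnit, one_mulVec]
  have e6 : ((Bᵀ * A⁻¹) *ᵥ (A *ᵥ w1 + B *ᵥ w2)) ⬝ᵥ w2 = (A *ᵥ w1 + B *ᵥ w2) ⬝ᵥ A⁻¹ *ᵥ (B *ᵥ w2) := by
    have : A⁻¹ᵀ = A⁻¹ := by simpa using hA.inv.1.eq
    rw [dotProduct_comm, dotProduct_mulVec, ← vecMul_vecMul, vecMul_transpose, ← this,
      vecMul_transpose, dotProduct_comm, this]
  have e7 : qf Q⁻¹ (Q *ᵥ w) = (A *ᵥ w1 + B *ᵥ w2) ⬝ᵥ w1 + (Bᵀ *ᵥ w1 + D *ᵥ w2) ⬝ᵥ w2 := by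
    rw [qf, mulVec_mulVec, nonsing_inv_mul _ hQ.det_pos.ne'.isUnit, one_mulVec, ← e1, ← e2]
    exact Fin.sum_univ_add _
  rw [e7, e1, e2, e4, qf, qf, e3, e5, ← e4, sub_dotProduct, e6, dotProduct_add]
  ring

theorem gle_split (hI : StGinv) (hB : StGblock)
    (ih : ∀ k < d, ∀ Q : Matrix (Fin k) (Fin k) ℝ, Q.PosDef → Slope Q 1 → gq Q⁻¹ ≤ k)
    (hQ : Q.PosDef) (hS : Sl Q) {k : ℕ} (hk0 : 0 < k) (hk : k < d) (P : Matrix (Fin d) (Fin k) ℤ)
    (hP : Injective (rm P).mulVec) {t : ℝ} (ht1 : 1 ≤ t) (ht : ((rm P)ᵀ * Q * rm P).det ≤ t) :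
    gq Q⁻¹ ≤ t * d := by
  obtain ⟨m, rfl⟩ := Nat.exists_eq_add_of_le hk.le
  obtain ⟨U, hU, N, rfl⟩ := gle_ext P hP
  obtain ⟨h1, -, h3⟩ := gle_conj hI hQ hU
  have h4 := gle_pd hQ h1
  have h5 : Injective (rm N).mulVec := fun x y hxy => hP (by
    rw [gle_rm_mul, ← mulVec_mulVec, ← mulVec_mulVec, hxy])
  have h6 := (h4.submatrix (Fin.castAdd_injective k m)).det_pos
  have h7 : (rm (U.submatrix id (Fin.castAdd m) * N))ᵀ * Q * rm (U.submatrix id (Fin.castAdd m) * N) =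
      (rm N)ᵀ * ((rm U)ᵀ * Q * rm U).submatrix (Fin.castAdd m) (Fin.castAdd m) * rm N := by
    have : ((rm U)ᵀ * Q * rm U).submatrix (Fin.castAdd m) (Fin.castAdd m) =
        (rm (U.submatrix id (Fin.castAdd m)))ᵀ * Q * rm (U.submatrix id (Fin.castAdd m)) := rfl
    rw [this, gle_rm_mul, transpose_mul]
    simp only [Matrix.mul_assoc]
  rw [h7, gle_det_conj] at ht
  have h8 := gle_split0 hB (ih k hk) (ih m (by omega)) h4 (hS.conj h1) ht1
    ((le_mul_of_one_le_left h6.le (gle_det_sq h5)).trans ht)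
  rw [h3] at h8
  push_cast
  nlinarith [mul_le_mul_of_nonneg_right ht1 (Nat.cast_nonneg (α := ℝ) k)]

theorem gle_pd_of (hs : Q.IsSymm) (h : ∀ x, x ≠ 0 → 0 < qf Q x) : Q.PosDef :=
  .of_dotProduct_mulVec_pos (by simpa [IsHermitian] using hs.eq) fun x hx => by simpa [qf] using h x hx

theorem gle_psd_of (hs : Q.IsSymm) (h : ∀ x, 0 ≤ qf Q x) : Q.PosSemidef :=
  .of_dotProduct_mulVec_nonneg (by simpa [IsHermitian] using hs.eq) fun x => by simpa [qf] using h x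

theorem gle_symm (hQ : Q.PosDef) : Q.IsSymm := by simpa [IsHermitian, IsSymm] using hQ.1

/-- forms near an interior point have slope one -/
theorem gle_near {Q' : Matrix (Fin d) (Fin d) ℝ} (hQ : Q.PosDef) (hQ' : Q'.PosDef) {t θ : ℝ}
    (ht : ∀ k, 0 < k → k < d → ∀ P : Matrix (Fin d) (Fin k) ℤ, Injective (rm P).mulVec →
      t ≤ ((rm P)ᵀ * Q * rm P).det) (h0 : 0 < θ) (h1 : θ ≤ 1) (h2 : 1 ≤ θ ^ d * t)
    (h : ∀ x, θ * qf Q x ≤ qf Q' x) (hd : 1 ≤ Q'.det) : Slope Q' 1 := by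
  intro k P hP
  rw [one_pow]
  have hk : k ≤ d := by simpa using hP.fintype_card_le_finrank
  rw [gle_li] at hP
  rcases hk.eq_or_lt with rfl | hk
  · rw [gle_det_conj]
    exact one_le_mul_of_one_le_of_one_le (gle_det_sq hP) hd
  rcases Nat.eq_zero_or_pos k with rfl | hk0
  · simp
  have h3 : (Q' - θ • Q).PosSemidef := gle_psd_of ((gle_symm hQ').sub ((gle_symm hQ).smul θ))
    fun x => by simpa [qf, sub_mulVec, smul_mulVec] using h x
  have h4 := SL.det_le_det (A := θ • ((rm P)ᵀ * Q * rm P)) (B := (rm P)ᵀ * Q' * rm P)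
    ((gle_pd hQ hP).smul h0).posSemidef (by
      simpa [Matrix.mul_sub, Matrix.sub_mul] using h3.conjTranspose_mul_mul_same (rm P))
  rw [det_smul, Fintype.card_fin] at h4
  refine h2.trans (le_trans ?_ h4)
  have h5 : 0 < t := by
    by_contra hc
    nlinarith [mul_nonneg (pow_pos h0 d).le (neg_nonneg.2 (not_lt.1 hc))]
  exact mul_le_mul (pow_le_pow_of_le_one h0.le h1 hk.le) (ht k hk0 hk P hP) h5.le (pow_pos h0 k).le

theorem gle_theta (d : ℕ) {a : ℝ} (ha : 1 < a) : ∃ θ : ℝ, 0 < θ ∧ θ < 1 ∧ 1 ≤ θ ^ d * a := by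
  have h1 : ∀ᶠ θ : ℝ in 𝓝 1, 1 < θ ^ d * a :=
    (by fun_prop : Continuous fun θ : ℝ => θ ^ d * a).continuousAt.eventually_const_lt (by simpa)
  obtain ⟨θ, h2, h3⟩ := (((lt_mem_nhds one_pos).and h1).filter_mono
    (nhdsWithin_le_nhds (s := Set.Iio 1))).and self_mem_nhdsWithin |>.exists
  exact ⟨θ, h2.1, h3, h2.2.le⟩

theorem gle_ev {α : Type} {l : Filter α} {F : α → Matrix (Fin d) (Fin d) ℝ} (hQ : Q.PosDef)
    (hF : Tendsto F l (𝓝 Q)) {η : ℝ} (hη : 0 < η) :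
    ∀ᶠ e in l, ∀ x, (1 - η) * qf Q x ≤ qf (F e) x ∧ qf (F e) x ≤ (1 + η) * qf Q x := by
  obtain ⟨r, hr, h⟩ := qf_near hQ hη
  have : ∀ᶠ e in l, ∀ i j, |F e i j - Q i j| ≤ r := eventually_all.2 fun i => eventually_all.2 fun j =>
    (Metric.tendsto_nhds.1 (tendsto_pi_nhds.1 (tendsto_pi_nhds.1 hF i) j) r hr).mono fun _ h => h.le
  exact this.mono fun e he => h _ he

theorem gle_cinv (hQ : Q.PosDef) : ContinuousAt (fun M : Matrix (Fin d) (Fin d) ℝ => M⁻¹) Q :=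
  continuousAt_matrix_inv Q (by
    rw [Ring.inverse_eq_inv']; exact continuousAt_inv₀ hQ.det_pos.ne')

theorem gle_qf_smul (a : ℝ) (x : Fin d → ℝ) : qf (a • Q) x = a * qf Q x := by
  simp [qf, smul_mulVec]

theorem gle_cont {α : Type} {l : Filter α} {F : α → Matrix (Fin d) (Fin d) ℝ} (hQ : Q.PosDef)
    (hF : Tendsto F l (𝓝 Q)) (hp : ∀ᶠ e in l, (F e).PosDef) :
    Tendsto (fun e => gq (F e)) l (𝓝 (gq Q)) := by
  refine Metric.tendsto_nhds.2 fun ε hε => ?_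
  have h0 := gq_nonneg hQ
  obtain ⟨η, h1, h2, h3⟩ : ∃ η : ℝ, 0 < η ∧ η < 1 ∧ η * gq Q < ε := by
    refine ⟨ε / (ε + gq Q + 1), by positivity, (div_lt_one (by positivity)).2 (by linarith), ?_⟩
    rw [div_mul_eq_mul_div, div_lt_iff₀ (by positivity)]
    nlinarith
  filter_upwards [gle_ev hQ hF h1, hp] with e he hpe
  have h4 := gq_mono (hQ.smul (sub_pos.2 h2)) hpe fun x => by rw [gle_qf_smul]; exact (he x).1
  have h5 := gq_mono hpe (hQ.smul (show 0 < 1 + η by linarith)) fun x => by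
    rw [gle_qf_smul]; exact (he x).2
  rw [gq_smul hQ (by linarith)] at h4 h5
  rw [Real.dist_eq, abs_lt]
  constructor <;> linarith

/-- existence of a maximiser -/
theorem gle_max (hHB : StHB) (hI : StGinv) (hQ : Q.PosDef) (hS : Slope Q 1) :
    ∃ Q0 : Matrix (Fin d) (Fin d) ℝ, Q0.PosDef ∧ Slope Q0 1 ∧ Q0.det ≤ Q.det ∧
      ∀ Q' : Matrix (Fin d) (Fin d) ℝ, Q'.PosDef → Slope Q' 1 → Q'.det ≤ Q.det →
        gq Q'⁻¹ ≤ gq Q0⁻¹ := by
  obtain ⟨C, hC, H⟩ := hHB d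
  have hT := (sl_iff.2 hS).one_le
  set K : Set (Matrix (Fin d) (Fin d) ℝ) := {M | (∀ i j, M i j ∈ Set.Icc (-(C * Q.det ^ 2))
    (C * Q.det ^ 2)) ∧ M.IsSymm ∧ (∀ x, 0 ≤ qf M x) ∧ Slope M 1 ∧ M.det ≤ Q.det} with hK
  have hc : IsCompact K := by
    refine (isCompact_univ_pi fun i : Fin d => isCompact_univ_pi fun j : Fin d =>
      isCompact_Icc (a := -(C * Q.det ^ 2)) (b := C * Q.det ^ 2)).of_isClosed_subset ?_
        fun M hM i _ j _ => hM.1 i j
    simp only [hK, Set.ofPred_and, Slope, Set.ofPred_forall, qf, Matrix.IsSymm]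
    refine (isClosed_iInter fun i => isClosed_iInter fun j => isClosed_Icc.preimage (by fun_prop)).inter
      ((isClosed_eq (by fun_prop) continuous_id).inter ((isClosed_iInter fun x =>
        isClosed_le continuous_const (by fun_prop)).inter ((isClosed_iInter fun k =>
          isClosed_iInter fun P => isClosed_iInter fun _ => isClosed_le continuous_const
            (by fun_prop)).inter (isClosed_le (by fun_prop) continuous_const))))
  have hp : ∀ M ∈ K, M.PosDef := fun M hM => (gle_psd_of hM.2.1 hM.2.2.1).posDef_iff_det_ne_zero.2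
    (by linarith [(sl_iff.2 hM.2.2.2.1).one_le])
  have hm : ∀ Q' : Matrix (Fin d) (Fin d) ℝ, Q'.PosDef → Slope Q' 1 → Q'.det ≤ Q.det →
      ∃ M ∈ K, gq M⁻¹ = gq Q'⁻¹ := fun Q' h1 h2 h3 => by
    obtain ⟨U, hU, h4⟩ := H Q' 1 Q.det one_pos (by linarith) h1 h2 fun i hi => by
      rw [one_pow, one_mul]; exact h3.trans (le_self_pow₀ hT (by omega))
    obtain ⟨k1, k2, k3⟩ := gle_conj hI h1 hU
    have k4 := gle_pd h1 k1
    refine ⟨_, ⟨fun i j => ?_, gle_symm k4, qf_nonneg k4, sl_iff.1 ((sl_iff.2 h2).conj k1),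
      k2.trans_le h3⟩, k3⟩
    have k5 := qf_nonneg k4 (Pi.single i 1 + Pi.single j 1)
    have k6 := qf_nonneg k4 (Pi.single i 1 - Pi.single j 1)
    have k7 := (gle_symm k4).apply i j
    generalize (rm U)ᵀ * Q' * rm U = M at *
    simp only [qf, mulVec_add, mulVec_sub, add_dotProduct, sub_dotProduct, dotProduct_add,
      dotProduct_sub, mulVec_single_one, single_dotProduct, one_mul, col_apply] at k5 k6
    constructor <;> linarith [h4 i, h4 j]
  obtain ⟨M, hM, -⟩ := hm Q hQ hS le_rfl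
  obtain ⟨Q0, h0, h1⟩ := hc.exists_isMaxOn ⟨M, hM⟩ (f := fun M => gq M⁻¹) fun M hM =>
    gle_cont (hp M hM).inv (gle_cinv (hp M hM)).continuousWithinAt
      (eventually_nhdsWithin_of_forall fun M' hM' => (hp M' hM').inv)
  refine ⟨Q0, hp _ h0, h0.2.2.2.1, h0.2.2.2.2, fun Q' k1 k2 k3 => ?_⟩
  obtain ⟨M', k4, k5⟩ := hm Q' k1 k2 k3
  exact k5 ▸ h1 k4

/-- the interior case -/
theorem gle_int (hCrit : StGcrit) (hd : 1 ≤ d) (hQ : Q.PosDef) (h1 : Q.det = 1) {t : ℝ} (ht1 : 1 < t)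
    (ht : ∀ k, 0 < k → k < d → ∀ P : Matrix (Fin d) (Fin k) ℤ, Injective (rm P).mulVec →
      t ≤ ((rm P)ᵀ * Q * rm P).det)
    (hmax : ∀ Q' : Matrix (Fin d) (Fin d) ℝ, Q'.PosDef → Slope Q' 1 → Q'.det = 1 →
      gq Q'⁻¹ ≤ gq Q⁻¹) : gq Q⁻¹ ≤ d := by
  have h2 : Q⁻¹.det = 1 := by rw [det_nonsing_inv, h1, Ring.inverse_one]
  refine hCrit d _ hd hQ.inv h2 fun H hH => Eventually.filter_mono nhdsWithin_le_nhds ?_
  obtain ⟨θ, t0, t1, t2⟩ := gle_theta d ht1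
  have c1 : Tendsto (fun e : ℝ => Q⁻¹ + e • H) (𝓝 0) (𝓝 Q⁻¹) :=
    (by fun_prop : Continuous fun e : ℝ => Q⁻¹ + e • H).tendsto' _ _ (by simp)
  have c2 : Tendsto (fun e : ℝ => (Q⁻¹ + e • H).det ^ (1 / (d : ℝ))) (𝓝 0) (𝓝 1) := by
    have := ((continuous_id.matrix_det.tendsto _).comp c1).rpow_const (p := 1 / (d : ℝ))
      (Or.inr (by positivity))
    simpa [h1] using this
  have c3 := c2.smul ((gle_cinv hQ.inv).tendsto.comp c1)
  rw [one_smul, nonsing_inv_nonsing_inv _ hQ.det_pos.ne'.isUnit] at c3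
  filter_upwards [gle_ev hQ.inv c1 one_half_pos, gle_ev hQ c3 (sub_pos.2 t1)] with e k1 k2
  have k3 : (Q⁻¹ + e • H).PosDef := gle_pd_of ((gle_symm hQ.inv).add (hH.smul e)) fun x hx => by
    have : 0 < qf Q⁻¹ x := by simpa [qf] using hQ.inv.dotProduct_mulVec_pos hx
    linarith [(k1 x).1]
  simp only [Function.comp_apply] at k2
  generalize Q⁻¹ + e • H = M at *
  have k4 : 0 < M.det ^ (1 / (d : ℝ)) := Real.rpow_pos_of_pos k3.det_pos _
  have k5 : (M.det ^ (1 / (d : ℝ)) • M⁻¹).det = 1 := by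
    rw [det_smul, Fintype.card_fin, one_div, Real.rpow_inv_natCast_pow k3.det_pos.le (by omega),
      det_nonsing_inv, Ring.mul_inverse_cancel _ k3.det_pos.ne'.isUnit]
  have k6 := hmax _ (k3.inv.smul k4) (gle_near hQ (k3.inv.smul k4) ht t0 t1.le t2
    (fun x => by simpa using (k2 x).1) k5.ge) k5
  rwa [gle_inv_smul k3.inv k4, nonsing_inv_nonsing_inv _ k3.det_pos.ne'.isUnit,
    gq_smul k3 (by positivity), inv_mul_le_iff₀' k4] at k6

theorem stGle (hHB : StHB) (hI : StGinv) (hB : StGblock) (hCrit : StGcrit) : StGle := by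
  intro d
  induction d using Nat.strong_induction_on with
  | _ d ih =>
  intro Q hQ hS
  rcases Nat.eq_zero_or_pos d with rfl | hd
  · have := gq_smul hQ.inv two_pos
    rw [Subsingleton.elim ((2 : ℝ) • Q⁻¹) Q⁻¹] at this
    push_cast
    linarith
  obtain ⟨Q0, h0, h1, h2, hmax⟩ := gle_max hHB hI hQ hS
  refine (hmax Q hQ hS le_rfl).trans ?_
  by_cases ht : ∀ t : ℝ, 1 < t → ∃ k, 0 < k ∧ k < d ∧ ∃ P : Matrix (Fin d) (Fin k) ℤ,
      Injective (rm P).mulVec ∧ ((rm P)ᵀ * Q0 * rm P).det < t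
  · refine (le_iff_forall_one_lt_le_mul₀ (Nat.cast_nonneg d)).2 fun t h3 => ?_
    obtain ⟨k, k1, k2, P, k3, k4⟩ := ht t h3
    exact (gle_split hI hB ih h0 (sl_iff.2 h1) k1 k2 P k3 h3.le k4.le).trans_eq (mul_comm _ _)
  push Not at ht
  obtain ⟨t, ht1, ht⟩ := ht
  rcases (sl_iff.2 h1).one_le.eq_or_lt with h3 | h3
  · exact gle_int hCrit hd h0 h3.symm ht1 ht fun Q' k1 k2 k3 =>
      hmax Q' k1 k2 (k3.trans_le (sl_iff.2 hS).one_le)
  · obtain ⟨θ, t0, t1, t2⟩ := gle_theta d (lt_min ht1 h3)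
    have k1 : (θ • Q0).det = θ ^ d * Q0.det := by rw [det_smul, Fintype.card_fin]
    have k2 := hmax _ (h0.smul t0) (gle_near h0 (h0.smul t0) ht t0 t1.le
      (t2.trans (mul_le_mul_of_nonneg_left (min_le_left _ _) (by positivity)))
      (fun x => (gle_qf_smul θ x).ge)
      (t2.trans (k1 ▸ mul_le_mul_of_nonneg_left (min_le_right _ _) (by positivity))))
      (k1 ▸ (mul_le_of_le_one_left h0.det_pos.le (pow_le_one₀ t0.le t1.le)).trans h2)
    rw [gle_inv_smul h0 t0, gq_smul h0.inv (by positivity), inv_mul_le_iff₀ t0] at k2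
    nlinarith [Nat.cast_nonneg (α := ℝ) d, gq_nonneg h0.inv]

end Crest.Agent.R152
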