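import Crest.Agent.R152.W.Basic
import Crest.Agent.R152.LA

/-! Row 152, W3.  Recipe: `dq (Uᵀ Q U) x = dq Q (U x)`; both the unit cube and its image under `U` are fundamental domains of `ℤ^d`
(`IsAddFundamentalDomain.setIntegral_eq`, `ZSpan.fundamentalDomain`), `|det U| = 1`.  Block: choose `y₁` optimal for `x₁`, then
`dq Q x ≤ dq A x₁ + dq S (x₂ - C (x₁ - y₁))`, Fubini and `integral_cube_shift` (to avoid measurable selection integrate `x₂` first for fixed `x₁`). -/

set_option autoImplicit false
open Matrix Filter MeasureTheory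

namespace Crest.Agent.R152

theorem stGinv : StGinv := by
  intro d Q _ U hU
  have hU' : |(rm U).det| = 1 := by
    rw [LA.rm_det]
    rcases Int.isUnit_iff.1 hU with h | h <;> simp [h]
  have hd : (rm U).det ≠ 0 := fun h => by simp [h] at hU'
  let e : (Fin d → ℤ) ≃ (Fin d → ℤ) :=
    { toFun := fun y => U⁻¹ *ᵥ y
      invFun := fun y => U *ᵥ y
      left_inv := fun y => by simp only [mulVec_mulVec, mul_nonsing_inv _ hU, one_mulVec]
      right_inv := fun y => by simp only [mulVec_mulVec, nonsing_inv_mul _ hU, one_mulVec] }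
  have he : ∀ y, rm U *ᵥ rc (e y) = rc y := fun y => by
    rw [LA.rm_mulVec]; exact congrArg rc (e.left_inv y)
  let φ : (Fin d → ℝ) ≃ᵐ (Fin d → ℝ) :=
    (Matrix.toLinearEquiv' (rm U) (invertibleOfIsUnitDet _ hd.isUnit)).toContinuousLinearEquiv.toHomeomorph.toMeasurableEquiv
  have hφ : ∀ x, φ x = rm U *ᵥ x := fun x => rfl
  have hmp : MeasurePreserving φ volume volume := ⟨φ.measurable, by
    have := Real.map_matrix_volume_pi_eq_smul_volume_pi hd
    rw [abs_inv, hU', inv_one, ENNReal.ofReal_one, one_smul] at this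
    exact this⟩
  rw [gq_eq, gq_eq, ← FD.integral_comp (dq Q) dq_add_int φ hmp e fun x y => by
    rw [hφ, hφ, mulVec_add, he]]
  congr 1
  funext x
  unfold dq
  rw [← e.iInf_comp]
  refine iInf_congr fun y => ?_
  rw [hφ, ← he y, ← mulVec_sub]
  simp only [qf, ← mulVec_mulVec]
  rw [dotProduct_mulVec, vecMul_transpose]

theorem stGblock : StGblock := by
  intro k m A S C Q hA hS hQ h
  let ψ : (Fin k → ℝ) × (Fin m → ℝ) ≃ᵐ (Fin (k + m) → ℝ) :=
    (MeasurableEquiv.sumPiEquivProdPi fun _ : Fin k ⊕ Fin m => ℝ).symm.trans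
      (MeasurableEquiv.piCongrLeft (fun _ : Fin (k + m) => ℝ) finSumFinEquiv)
  have hψ : MeasurePreserving ψ volume volume :=
    (volume_measurePreserving_piCongrLeft (fun _ : Fin (k + m) => ℝ) finSumFinEquiv).comp
      (volume_measurePreserving_sumPiEquivProdPi_symm fun _ : Fin k ⊕ Fin m => ℝ)
  have h1 : ∀ z i, ψ z (Fin.castAdd m i) = z.1 i := fun z i => by
    have := MeasurableEquiv.piCongrLeft_apply_apply (β := fun _ : Fin (k + m) => ℝ) finSumFinEquiv
      ((MeasurableEquiv.sumPiEquivProdPi fun _ : Fin k ⊕ Fin m => ℝ).symm z) (Sum.inl i)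
    exact this
  have h2 : ∀ z j, ψ z (Fin.natAdd k j) = z.2 j := fun z j => by
    have := MeasurableEquiv.piCongrLeft_apply_apply (β := fun _ : Fin (k + m) => ℝ) finSumFinEquiv
      ((MeasurableEquiv.sumPiEquivProdPi fun _ : Fin k ⊕ Fin m => ℝ).symm z) (Sum.inr j)
    exact this
  have h3 : ψ ⁻¹' Set.Icc 0 1 = Set.Icc 0 1 ×ˢ Set.Icc 0 1 := by
    ext z
    simp only [Set.mem_preimage, Set.mem_Icc, Pi.le_def, Set.mem_prod, Pi.zero_apply, Pi.one_apply,
      Fin.forall_fin_add, h1, h2]
    tauto
  have hint : IntegrableOn (fun z => dq Q (ψ z)) (Set.Icc 0 1 ×ˢ Set.Icc 0 1) (volume.prod volume) := by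
    rw [← h3]
    exact (hψ.integrableOn_comp_preimage ψ.measurableEmbedding).2
      ((continuous_dq hQ).continuousOn.integrableOn_compact isCompact_Icc)
  rw [gq_eq Q, ← hψ.setIntegral_preimage_emb ψ.measurableEmbedding, h3]
  refine (le_of_eq (setIntegral_prod _ hint)).trans ?_
  have hv : ∀ r : ℕ, (volume : Measure (Fin r → ℝ)).real (Set.Icc 0 1) = 1 := fun r => by
    rw [Measure.real, FD.volume_cube]; simp
  have h4 : ∫ a in Set.Icc (0 : Fin k → ℝ) 1, (dq A a + gq S) = gq A + gq S := by
    rw [integral_add ((continuous_dq hA).continuousOn.integrableOn_compact isCompact_Icc)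
      (continuous_const.continuousOn.integrableOn_compact isCompact_Icc), setIntegral_const, hv,
      one_smul, gq_eq A]
  rw [← h4]
  refine integral_mono (by
      have := hint
      rw [IntegrableOn, ← Measure.prod_restrict] at this
      exact this.integral_prod_left)
    (((continuous_dq hA).add continuous_const).continuousOn.integrableOn_compact isCompact_Icc)
    fun a => ?_
  obtain ⟨y1, hy1⟩ := exists_dq_eq hA a
  have h5 : ∫ b in Set.Icc (0 : Fin m → ℝ) 1, (dq A a + dq S (b + -(C *ᵥ (a - rc y1)))) =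
      dq A a + gq S := by
    have hc : Continuous fun b : Fin m → ℝ => dq S (b + -(C *ᵥ (a - rc y1))) :=
      (continuous_dq hS).comp (continuous_id.add continuous_const)
    rw [integral_add (continuous_const.continuousOn.integrableOn_compact isCompact_Icc)
      (hc.continuousOn.integrableOn_compact isCompact_Icc), setIntegral_const, hv, one_smul,
      integral_cube_shift _ (continuous_dq hS) dq_add_int, gq_eq S]
  simp only
  rw [← h5]
  have hc : Continuous fun b : Fin m → ℝ => ψ (a, b) := continuous_pi fun i => by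
    refine Fin.addCases (fun i => ?_) (fun j => ?_) i
    · simp only [h1]; exact continuous_const
    · simp only [h2]; exact continuous_apply j
  refine integral_mono (((continuous_dq hQ).comp hc).continuousOn.integrableOn_compact isCompact_Icc)
    ((continuous_const.add ((continuous_dq hS).comp
      (continuous_id.add continuous_const))).continuousOn.integrableOn_compact isCompact_Icc)
    fun b => ?_
  obtain ⟨y2, hy2⟩ := exists_dq_eq hS (b + -(C *ᵥ (a - rc y1)))
  refine (dq_le hQ _ (Fin.append y1 y2)).trans (le_of_eq ?_)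
  rw [h, hy2]
  conv_rhs => rw [hy1]
  have e1 : (fun i => (ψ (a, b) - rc (Fin.append y1 y2)) (Fin.castAdd m i)) = a - rc y1 := by
    funext i; simp [h1, rc]
  have e2 : (fun j => (ψ (a, b) - rc (Fin.append y1 y2)) (Fin.natAdd k j)) = b - rc y2 := by
    funext j; simp [h2, rc]
  rw [e1, e2]
  congr 2
  abel

end Crest.Agent.R152
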