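import Crest.Agent.R152.W.WRMX

/-! Row 152, W6.  Recipe: `L` is discrete (nonzero vectors have norm `≥ s`), so it has a `ℤ`-basis `b : Fin d → E`, `ℝ`-independent, `d ≤ finrank`
(`ZLattice` API on the span, or `instModuleFinite_of_discrete_submodule`); `Q = gram b / s²` has `Slope Q 1`.  For `Y ⊆ ℤ^d` with `qf Q y ≤ R²`:
`f θ = ∑ y ∈ Y, e(θ·y)`, `∫_cube |f|² = |Y|`; Gaussian density `φ ∝ exp (-(qf Q⁻¹ θ)/(2t²))` has `∫ φ cos(2π θ·z) = exp (-2π² t² qf Q z)`, so
`|Y|² exp (-8π²t²R²) ≤ ∫ φ |f|² ≤ exp (gq Q⁻¹/(2t²)) |Y|` by hC (periodise over the cube); optimise `t` (`4π ≤ 13`). -/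

set_option autoImplicit false
open Matrix Filter

namespace Crest.Agent.R152

/-- a discrete subgroup has an integral basis -/
theorem wrm_basis {E : Type} [NormedAddCommGroup E] [NormedSpace ℝ E] [FiniteDimensional ℝ E] (L : AddSubgroup E)
    {s : ℝ} (hs : 0 < s) (h : ∀ y ∈ L, y ≠ 0 → s ≤ ‖y‖) : ∃ (d : ℕ) (b : Fin d → E), LinearIndependent ℝ b ∧
      (∀ i, b i ∈ L) ∧ ∀ y ∈ L, ∃ z : Fin d → ℤ, y = ∑ i, rc z i • b i := by
  let M : Submodule ℤ E := L.toIntSubmodule
  have : DiscreteTopology M := DiscreteTopology.of_forall_le_norm hs fun x hx =>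
    h x x.2 fun h0 => hx (Subtype.ext h0)
  let b0 := Module.finBasis ℤ M
  have hsp : Submodule.span ℤ (Set.range fun i => (b0 i : E)) = M := by
    have := congrArg (Submodule.map M.subtype) b0.span_eq
    rwa [Submodule.map_span, ← Set.range_comp, Submodule.map_subtype_top] at this
  refine ⟨_, fun i => (b0 i : E), ?_, fun i => (b0 i).2, fun y hy => ⟨fun i => b0.repr ⟨y, hy⟩ i, ?_⟩⟩
  · rw [linearIndependent_iff_card_eq_finrank_span, Real.finrank_eq_int_finrank_of_discrete (by rwa [hsp]),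
      Set.finrank, hsp, Fintype.card_fin]
  · have := congrArg Subtype.val (b0.sum_repr ⟨y, hy⟩)
    simp only [rc, Int.cast_smul_eq_zsmul]
    rw [Submodule.coe_sum] at this
    exact this.symm

theorem stWRM (hC : StCosh) (hG : StGle) : StWRM := by
  intro E _ _ _ L s R hs hR H Y hY
  classical
  by_cases h0 : R = 0 ∨ Module.finrank ℝ E = 0
  · have : Y.card ≤ 1 := Finset.card_le_one.2 fun a ha b hb => by
      rcases h0 with rfl | h0
      · rw [norm_le_zero_iff.1 (hY a ha).2, norm_le_zero_iff.1 (hY b hb).2]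
      · exact (Module.finrank_zero_iff.1 h0).elim a b
    exact (Nat.cast_le_one.2 this).trans (Real.one_le_exp (by positivity))
  rw [not_or] at h0
  have hR0 : 0 < R := lt_of_le_of_ne hR (Ne.symm h0.1)
  have hD : (0 : ℝ) < Module.finrank ℝ E := by exact_mod_cast Nat.pos_of_ne_zero h0.2
  obtain ⟨d, b, hb, hbL, hz⟩ := wrm_basis L hs fun y hy h0 => by
    have := H 1 (fun _ => y) (fun _ => hy) (linearIndependent_unique_iff.2 h0)
    rw [det_unique, gram_apply, real_inner_self_eq_norm_sq] at this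
    exact (pow_le_pow_iff_left₀ hs.le (norm_nonneg _) two_ne_zero).1 this
  have hd : (d : ℝ) ≤ Module.finrank ℝ E := by
    exact_mod_cast (Fintype.card_fin d).symm.trans_le hb.fintype_card_le_finrank
  have hg : (gram ℝ b).PosDef := posDef_gram_of_linearIndependent hb
  have hin : ∀ x x' : Fin d → ℝ, x ⬝ᵥ gram ℝ b *ᵥ x' = inner ℝ (∑ i, x i • b i) (∑ i, x' i • b i) := fun x x' => by
    simpa using star_dotProduct_gram_mulVec b x x'
  have h1 : ((s ^ 2)⁻¹ • gram ℝ b).PosDef := hg.smul (by positivity)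
  have h2 := hG d _ h1 fun k P hP => by
    have := H k (fun j => ∑ i, rc (Pᵀ j) i • b i) (fun j => sum_mem fun i _ => by
      simpa only [rc, Int.cast_smul_eq_zsmul] using zsmul_mem (hbL i) _)
      (hP.map' (Fintype.linearCombination ℝ b) (LinearMap.ker_eq_bot.2 hb.fintypeLinearCombination_injective))
    have e : gram ℝ (fun j => ∑ i, rc (Pᵀ j) i • b i) = (rm P)ᵀ * gram ℝ b * rm P := by
      ext j j'
      rw [gram_apply, ← hin, Matrix.mul_assoc]
      rfl
    rw [Matrix.mul_smul, Matrix.smul_mul, det_smul, Fintype.card_fin, ← e, one_pow, inv_pow, ← pow_mul,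
      ← div_eq_inv_mul, one_le_div (by positivity)]
    exact this
  choose! κ hκ using hz
  obtain ⟨t, t0, ht⟩ : ∃ t, 0 < t ∧ t = √(Module.finrank ℝ E) / (4 * Real.pi * (R / s)) := ⟨_, by positivity, rfl⟩
  have h3 := wrm_count hC (h1.smul t0) (Y.image κ) (a := t * ((s ^ 2)⁻¹ * (2 * R) ^ 2)) fun w hw w' hw' => by
    obtain ⟨y, hy, rfl⟩ := Finset.mem_image.1 hw
    obtain ⟨y', hy', rfl⟩ := Finset.mem_image.1 hw'
    have e : ∑ i, rc (κ y - κ y') i • b i = y - y' := by
      conv_rhs => rw [hκ y (hY y hy).1, hκ y' (hY y' hy').1, ← Finset.sum_sub_distrib]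
      exact Finset.sum_congr rfl fun i _ => by simp [rc, sub_smul]
    rw [qf, smul_mulVec, smul_mulVec, dotProduct_smul, dotProduct_smul, hin, e, real_inner_self_eq_norm_sq,
      smul_eq_mul, smul_eq_mul]
    gcongr
    linarith [norm_sub_le y y', (hY y hy).2, (hY y' hy').2]
  rw [Finset.card_image_of_injOn fun y hy y' hy' h => by rw [hκ y (hY y hy).1, hκ y' (hY y' hy').1, h],
    inv_eq_right_inv (B := t⁻¹ • ((s ^ 2)⁻¹ • gram ℝ b)⁻¹) (by
      rw [Matrix.smul_mul, Matrix.mul_smul, mul_nonsing_inv _ h1.det_pos.ne'.isUnit, smul_smul,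
        mul_inv_cancel₀ t0.ne', one_smul]), gq_smul h1.inv (inv_pos.2 t0)] at h3
  refine h3.trans (Real.exp_le_exp.2 ?_)
  have h4 := mul_le_mul_of_nonneg_left (h2.trans hd) (inv_pos.2 t0).le
  have h5 := Real.mul_self_sqrt hD.le
  have h6 := Real.sqrt_pos.2 hD
  generalize √(Module.finrank ℝ E) = u at *
  have e1 : 2 * Real.pi ^ 2 * (t * ((s ^ 2)⁻¹ * (2 * R) ^ 2)) = 2 * Real.pi * (R * u / s) := by
    rw [ht]
    field_simp
    norm_num
  have e2 : t⁻¹ * (Module.finrank ℝ E : ℝ) = 4 * Real.pi * (R * u / s) := by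
    rw [ht, ← h5]
    field_simp
  have h7 : 0 ≤ R * u / s := by positivity
  have h8 := mul_le_mul_of_nonneg_right Real.pi_lt_d2.le h7
  rw [show 13 * R * u / s = 13 * (R * u / s) by ring]
  linarith

end Crest.Agent.R152
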