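import Crest.Agent.R152.Iface

/-! Row 152, block W (helper92): the unit cube as a fundamental domain of `ℤ^d`. -/

set_option autoImplicit false
open Matrix Filter MeasureTheory

namespace Crest.Agent.R152.FD

/-- `ℤ^d` acting on `ℝ^d` by translations -/
def WZ (d : ℕ) : Type := Fin d → ℤ

variable {d : ℕ}

instance : AddCommGroup (WZ d) := inferInstanceAs (AddCommGroup (Fin d → ℤ))
instance : Countable (WZ d) := inferInstanceAs (Countable (Fin d → ℤ))

theorem rc_zero {ι : Type} : rc (0 : ι → ℤ) = 0 := by funext i; simp [rc]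
theorem rc_add {ι : Type} (a b : ι → ℤ) : rc (a + b) = rc a + rc b := by funext i; simp [rc]
theorem rc_neg {ι : Type} (a : ι → ℤ) : rc (-a) = -rc a := by funext i; simp [rc]
theorem rc_sub {ι : Type} (a b : ι → ℤ) : rc (a - b) = rc a - rc b := by funext i; simp [rc]

instance : AddAction (WZ d) (Fin d → ℝ) where
  vadd g x := x + rc (ι := Fin d) g
  zero_vadd x := by
    change x + rc (0 : Fin d → ℤ) = x
    rw [rc_zero, add_zero]
  add_vadd a b x := by
    exact (congrArg (x + ·) (rc_add (ι := Fin d) a b)).trans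
      (show x + (rc (ι := Fin d) a + rc (ι := Fin d) b) = x + rc (ι := Fin d) b + rc (ι := Fin d) a by abel)

theorem vadd_def (g : WZ d) (x : Fin d → ℝ) : g +ᵥ x = x + rc (ι := Fin d) g := rfl

instance : MeasurableConstVAdd (WZ d) (Fin d → ℝ) :=
  ⟨fun g => measurable_add_const (rc (ι := Fin d) g)⟩

instance : VAddInvariantMeasure (WZ d) (Fin d → ℝ) volume :=
  ⟨fun g s _ => measure_preimage_add_right volume (rc (ι := Fin d) g) s⟩

theorem fund_Ico : IsAddFundamentalDomain (WZ d)
    (Set.pi Set.univ fun _ : Fin d => Set.Ico (0 : ℝ) 1) volume := by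
  refine IsAddFundamentalDomain.mk' (MeasurableSet.univ_pi fun _ => measurableSet_Ico).nullMeasurableSet
    fun x => ⟨fun i => -⌊x i⌋, fun i _ => ?_, fun g hg => funext fun i => ?_⟩
  · simp only [vadd_def, rc, Pi.add_apply, Int.cast_neg, ← sub_eq_add_neg, Int.self_sub_floor]
    exact ⟨Int.fract_nonneg _, Int.fract_lt_one _⟩
  · have := hg i trivial
    simp only [vadd_def, rc, Pi.add_apply, Set.mem_Ico] at this
    have h : ⌊x i + (g i : ℝ)⌋ = 0 := Int.floor_eq_zero_iff.2 this
    rw [Int.floor_add_intCast] at h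
    omega

theorem restrict_cube : (volume : Measure (Fin d → ℝ)).restrict (Set.Icc 0 1) =
    volume.restrict (Set.pi Set.univ fun _ : Fin d => Set.Ico (0 : ℝ) 1) :=
  (Measure.restrict_congr_set Measure.univ_pi_Ico_ae_eq_Icc).symm

/-- invariance of the integral of a periodic function under a lattice-compatible map -/
theorem integral_comp (f : (Fin d → ℝ) → ℝ) (hper : ∀ x (y : Fin d → ℤ), f (x + rc y) = f x)
    (φ : (Fin d → ℝ) ≃ᵐ (Fin d → ℝ)) (hφ : MeasurePreserving φ volume volume)
    (e : (Fin d → ℤ) ≃ (Fin d → ℤ)) (he : ∀ x y, φ (x + rc (e y)) = φ x + rc y) :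
    ∫ x in Set.Icc (0 : Fin d → ℝ) 1, f (φ x) = ∫ x in Set.Icc (0 : Fin d → ℝ) 1, f x := by
  rw [restrict_cube, ← hφ.setIntegral_image_emb φ.measurableEmbedding]
  refine IsAddFundamentalDomain.setIntegral_eq (G := WZ d) ?_ fund_Ico fun g x => hper x g
  exact fund_Ico.image_of_equiv φ.toEquiv (hφ.symm φ).quasiMeasurePreserving (H := WZ d) e
    fun g x => he x g

/-- unfolding -/
theorem lintegral_unfold (f : (Fin d → ℝ) → ENNReal) :
    ∫⁻ x, f x = ∑' y : Fin d → ℤ, ∫⁻ x in Set.Icc (0 : Fin d → ℝ) 1, f (x + rc y) := by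
  rw [restrict_cube]
  exact (fund_Ico (d := d)).lintegral_eq_tsum'' f

theorem volume_cube : volume (Set.Icc (0 : Fin d → ℝ) 1) = 1 := by
  rw [Real.volume_Icc_pi]; simp

end Crest.Agent.R152.FD
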