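import Crest.Agent.R152.Iface
import Crest.Agent.R152.W.FD

/-! Row 152, block W: basic facts on `x ↦ ⨅ y, qf Q (x - rc y)` and on `gq`. -/

set_option autoImplicit false
open Matrix Filter

namespace Crest.Agent.R152

/-- squared distance to the integer lattice -/
noncomputable def dq {d : ℕ} (Q : Matrix (Fin d) (Fin d) ℝ) (x : Fin d → ℝ) : ℝ :=
  ⨅ y : Fin d → ℤ, qf Q (x - rc y)

theorem gq_eq {d : ℕ} (Q : Matrix (Fin d) (Fin d) ℝ) :
    gq Q = ∫ x in Set.Icc (0 : Fin d → ℝ) 1, dq Q x := rfl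

variable {d : ℕ} {Q : Matrix (Fin d) (Fin d) ℝ}

theorem qf_nonneg (hQ : Q.PosDef) (x : Fin d → ℝ) : 0 ≤ qf Q x := by
  simpa [qf] using hQ.posSemidef.dotProduct_mulVec_nonneg x

theorem WB.cont (Q : Matrix (Fin d) (Fin d) ℝ) : Continuous (qf Q) := by
  unfold qf
  exact continuous_id.dotProduct (continuous_const.matrix_mulVec continuous_id)

theorem WB.qf_smul (Q : Matrix (Fin d) (Fin d) ℝ) (a : ℝ) (x : Fin d → ℝ) :
    qf Q (a • x) = a ^ 2 * qf Q x := by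
  simp only [qf, mulVec_smul, smul_dotProduct, dotProduct_smul, smul_eq_mul]; ring

theorem WB.qf_neg (Q : Matrix (Fin d) (Fin d) ℝ) (x : Fin d → ℝ) : qf Q (-x) = qf Q x := by
  simp only [qf, mulVec_neg, neg_dotProduct, dotProduct_neg, neg_neg]

/-- coercivity (sup norm) -/
theorem exists_qf_ge (hQ : Q.PosDef) : ∃ c : ℝ, 0 < c ∧ ∀ x : Fin d → ℝ, c * ‖x‖ ^ 2 ≤ qf Q x := by
  by_cases hne : (Metric.sphere (0 : Fin d → ℝ) 1).Nonempty
  · obtain ⟨x0, hx0, hmin⟩ := (isCompact_sphere (0 : Fin d → ℝ) 1).exists_isMinOn hne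
      (WB.cont Q).continuousOn
    have hx0' : x0 ≠ 0 := by rintro rfl; simp at hx0
    refine ⟨qf Q x0, by simpa [qf] using hQ.dotProduct_mulVec_pos hx0', fun x => ?_⟩
    by_cases hx : x = 0
    · simp [hx, qf]
    have hn : 0 < ‖x‖ := norm_pos_iff.2 hx
    have h1 : qf Q x0 ≤ qf Q (‖x‖⁻¹ • x) := hmin (by simp [norm_smul, hn.ne'])
    rw [WB.qf_smul, inv_pow, ← div_eq_inv_mul, le_div_iff₀ (by positivity)] at h1
    exact h1
  · refine ⟨1, one_pos, fun x => ?_⟩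
    have hx : x = 0 := by
      by_contra hx
      exact hne ⟨‖x‖⁻¹ • x, by simp [norm_smul, (norm_pos_iff.2 hx).ne']⟩
    simp [hx, qf]

theorem dq_le (hQ : Q.PosDef) (x : Fin d → ℝ) (y : Fin d → ℤ) : dq Q x ≤ qf Q (x - rc y) := by
  exact ciInf_le ⟨0, by rintro _ ⟨y, rfl⟩; exact qf_nonneg hQ _⟩ y

theorem dq_nonneg (hQ : Q.PosDef) (x : Fin d → ℝ) : 0 ≤ dq Q x := by
  exact le_ciInf fun y => qf_nonneg hQ _

/-- on a bounded set the infimum is attained in a fixed finite set -/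
theorem WB.loc (hQ : Q.PosDef) (R : ℝ) : ∃ S : Finset (Fin d → ℤ), ∀ x : Fin d → ℝ, ‖x‖ ≤ R →
    ∃ y ∈ S, dq Q x = qf Q (x - rc y) := by
  obtain ⟨c, hc, hcq⟩ := exists_qf_ge hQ
  obtain ⟨M, hM⟩ := (isCompact_closedBall (0 : Fin d → ℝ) R).bddAbove_image (WB.cont Q).continuousOn
  obtain ⟨N, hN⟩ := exists_nat_ge (R + (M / c + 1))
  refine ⟨Finset.Icc (fun _ => -(N : ℤ)) (fun _ => N), fun x hx => ?_⟩
  have h0 : (0 : Fin d → ℤ) ∈ Finset.Icc (fun _ : Fin d => -(N : ℤ)) (fun _ => N) := by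
    simp [Pi.le_def]
  obtain ⟨y0, hy0, hmin⟩ := Finset.exists_min_image _ (fun y => qf Q (x - rc y)) ⟨0, h0⟩
  refine ⟨y0, hy0, le_antisymm (dq_le hQ x y0) (le_ciInf fun y => ?_)⟩
  by_cases hy : y ∈ Finset.Icc (fun _ : Fin d => -(N : ℤ)) (fun _ => N)
  · exact hmin y hy
  have h1 := hmin 0 h0
  rw [FD.rc_zero, sub_zero] at h1
  have h2 : qf Q x ≤ M := hM ⟨x, by simpa using hx, rfl⟩
  have h3 : M / c + 1 ≤ ‖x - rc y‖ := by
    obtain ⟨i, hi⟩ : ∃ i, (N : ℤ) < |y i| := by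
      by_contra h
      push Not at h
      exact hy (Finset.mem_Icc.2 ⟨fun i => (abs_le.1 (h i)).1, fun i => (abs_le.1 (h i)).2⟩)
    have e1 : (N : ℝ) < |(y i : ℝ)| := by exact_mod_cast hi
    have e2 := norm_le_pi_norm (x - rc y) i
    have e3 := norm_le_pi_norm x i
    simp only [Pi.sub_apply, rc, Real.norm_eq_abs] at e2 e3
    have e4 := abs_sub_abs_le_abs_sub (y i : ℝ) (x i)
    rw [abs_sub_comm] at e4
    linarith
  have h4 : 0 ≤ M / c := div_nonneg ((qf_nonneg hQ x).trans h2) hc.le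
  have h5 : M / c ≤ ‖x - rc y‖ ^ 2 := by nlinarith
  rw [div_le_iff₀' hc] at h5
  linarith [hcq (x - rc y)]

theorem exists_dq_eq (hQ : Q.PosDef) (x : Fin d → ℝ) :
    ∃ y : Fin d → ℤ, dq Q x = qf Q (x - rc y) := by
  obtain ⟨S, hS⟩ := WB.loc hQ ‖x‖
  obtain ⟨y, -, h⟩ := hS x le_rfl
  exact ⟨y, h⟩

theorem dq_add_int (x : Fin d → ℝ) (y : Fin d → ℤ) : dq Q (x + rc y) = dq Q x := by
  unfold dq
  rw [← (Equiv.addRight y).iInf_comp]
  exact iInf_congr fun z => by simp [FD.rc_add]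

theorem dq_neg (x : Fin d → ℝ) : dq Q (-x) = dq Q x := by
  unfold dq
  rw [← (Equiv.neg (Fin d → ℤ)).iInf_comp]
  exact iInf_congr fun z => by
    rw [← WB.qf_neg]; congr 1; simp [FD.rc_neg, sub_eq_add_neg, add_comm]

theorem continuous_dq (hQ : Q.PosDef) : Continuous (dq Q) := by
  refine continuous_iff_continuousAt.2 fun x => ?_
  obtain ⟨S, hS⟩ := WB.loc hQ (‖x‖ + 1)
  obtain ⟨y0, hy0, -⟩ := hS x (by linarith)
  have hc : Continuous (S.inf' ⟨y0, hy0⟩ fun y z => qf Q (z - rc y)) :=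
    Continuous.finset_inf' _ fun y _ => (WB.cont Q).comp (continuous_id.sub continuous_const)
  refine hc.continuousAt.congr ?_
  filter_upwards [(isOpen_lt continuous_norm continuous_const).mem_nhds
    (show ‖x‖ < ‖x‖ + 1 by linarith)] with z hz
  rw [Finset.inf'_apply]
  obtain ⟨y, hy, h⟩ := hS z (le_of_lt hz)
  exact le_antisymm (h ▸ Finset.inf'_le _ hy) (Finset.le_inf' _ _ fun y _ => dq_le hQ z y)

theorem gq_nonneg (hQ : Q.PosDef) : 0 ≤ gq Q := by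
  exact MeasureTheory.integral_nonneg fun x => dq_nonneg hQ x

theorem gq_smul (hQ : Q.PosDef) {a : ℝ} (ha : 0 < a) : gq (a • Q) = a * gq Q := by
  rw [gq_eq, gq_eq, ← MeasureTheory.integral_const_mul]
  congr 1
  funext x
  unfold dq
  rw [Real.mul_iInf_of_nonneg ha.le]
  exact iInf_congr fun y => by simp [qf, smul_mulVec]

theorem gq_mono {Q' : Matrix (Fin d) (Fin d) ℝ} (hQ : Q.PosDef) (hQ' : Q'.PosDef)
    (h : ∀ x, qf Q x ≤ qf Q' x) : gq Q ≤ gq Q' := by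
  refine MeasureTheory.integral_mono
    ((continuous_dq hQ).continuousOn.integrableOn_compact isCompact_Icc)
    ((continuous_dq hQ').continuousOn.integrableOn_compact isCompact_Icc) fun x => ?_
  exact le_ciInf fun y => (dq_le hQ x y).trans (h _)

/-- nearby forms are comparable -/
theorem qf_near (hQ : Q.PosDef) {η : ℝ} (hη : 0 < η) :
    ∃ r : ℝ, 0 < r ∧ ∀ Q' : Matrix (Fin d) (Fin d) ℝ, (∀ i j, |Q' i j - Q i j| ≤ r) →
      ∀ x, (1 - η) * qf Q x ≤ qf Q' x ∧ qf Q' x ≤ (1 + η) * qf Q x := by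
  obtain ⟨c, hc, hcq⟩ := exists_qf_ge hQ
  refine ⟨η * c / (d ^ 2 + 1), by positivity, fun Q' h x => ?_⟩
  have h1 : qf Q' x - qf Q x = ∑ i, ∑ j, x i * (Q' i j - Q i j) * x j := by
    simp only [qf, dotProduct, mulVec, Finset.mul_sum, ← Finset.sum_sub_distrib]
    exact Finset.sum_congr rfl fun i _ => Finset.sum_congr rfl fun j _ => by ring
  have h2 : |qf Q' x - qf Q x| ≤ d ^ 2 * (η * c / (d ^ 2 + 1) * ‖x‖ ^ 2) := by
    rw [h1]
    refine (Finset.abs_sum_le_sum_abs _ _).trans ((Finset.sum_le_card_nsmul _ _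
      (d * (η * c / (d ^ 2 + 1) * ‖x‖ ^ 2)) fun i _ => ?_).trans (le_of_eq (by simp; ring)))
    refine (Finset.abs_sum_le_sum_abs _ _).trans ((Finset.sum_le_card_nsmul _ _
      (η * c / (d ^ 2 + 1) * ‖x‖ ^ 2) fun j _ => ?_).trans (le_of_eq (by simp)))
    rw [abs_mul, abs_mul]
    have e1 : |x i| ≤ ‖x‖ := norm_le_pi_norm x i
    have e2 : |x j| ≤ ‖x‖ := norm_le_pi_norm x j
    calc _ ≤ ‖x‖ * (η * c / (d ^ 2 + 1)) * ‖x‖ := by gcongr; exact h i j
      _ = _ := by ring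
  have h3 : (d : ℝ) ^ 2 * (η * c / (d ^ 2 + 1) * ‖x‖ ^ 2) ≤ η * (c * ‖x‖ ^ 2) := by
    have : (d : ℝ) ^ 2 / (d ^ 2 + 1) ≤ 1 := div_le_one_of_le₀ (by linarith) (by positivity)
    calc _ = d ^ 2 / (d ^ 2 + 1) * (η * (c * ‖x‖ ^ 2)) := by ring
      _ ≤ _ := mul_le_of_le_one_left (by positivity) this
  have h4 := mul_le_mul_of_nonneg_left (hcq x) hη.le
  have h5 := abs_le.1 (h2.trans (h3.trans h4))
  constructor <;> linarith [h5.1, h5.2]

/-- a continuous `ℤ^d`-periodic function has the same integral over a translate of the cube -/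
theorem integral_cube_shift (f : (Fin d → ℝ) → ℝ) (hf : Continuous f)
    (hper : ∀ x (y : Fin d → ℤ), f (x + rc y) = f x) (t : Fin d → ℝ) :
    ∫ x in Set.Icc (0 : Fin d → ℝ) 1, f (x + t) = ∫ x in Set.Icc (0 : Fin d → ℝ) 1, f x := by
  exact FD.integral_comp f hper (MeasurableEquiv.addRight t)
    (MeasureTheory.measurePreserving_add_right _ t) (Equiv.refl _) fun x y => by
      simp [add_right_comm]

end Crest.Agent.R152
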