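import Crest.Agent.R152.Iface
import Crest.Agent.R152.SLHerm
import Crest.Agent.R152.W.Basic

/-! Row 152, W1: Hermite basis.  Recipe: induction on `d`: a shortest nonzero integer vector `v` is primitive,
extend it to a unimodular matrix, take the Schur complement, size-reduce (`|μ| ≤ 1/2`), so the Gram-Schmidt squares satisfy
`g (i+1) ≥ (3/4) g i`; `∏_{l>i} g l = det Q / det (first i columns) ≤ T^(2(d-i))`; `C = d (4/3)^d + 1` works. -/

set_option autoImplicit false
open Matrix Filter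

namespace Crest.Agent.R152

namespace HB
open SL Module
open scoped InnerProductSpace

variable {E : Type} [NormedAddCommGroup E] [InnerProductSpace ℝ E] [FiniteDimensional ℝ E]

theorem mem_iff {k : ℕ} {w : Fin k → E} {x : E} :
    x ∈ Submodule.span ℤ (Set.range w) ↔ ∃ c : Fin k → ℤ, ∑ i, (c i : ℝ) • w i = x := by
  rw [Submodule.mem_span_range_iff_exists_fun]
  simp only [Int.cast_smul_eq_zsmul]

theorem gd_le {k : ℕ} {v w : Fin k → E} (h : ∀ i, v i ∈ Submodule.span ℤ (Set.range w))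
    (hv : LinearIndependent ℝ v) : gd w ≤ gd v ∧ LinearIndependent ℝ w := by
  choose C hC using fun i => mem_iff.1 (h i)
  have h1 : v = fun i => ∑ j, (rm (Matrix.of C)) i j • w j := by
    funext i; rw [← hC i]; rfl
  have h2 := gd_ne_zero.2 hv
  have h3 : (rm (Matrix.of C)).det = ((Matrix.of C).det : ℤ) := by rw [Int.cast_det]; rfl
  rw [h1, gd_lin, h3] at h2 ⊢
  have h4 : (Matrix.of C).det ≠ 0 := by
    intro h; apply h2; simp [h]
  have h5 : (1 : ℝ) ≤ (((Matrix.of C).det : ℤ) : ℝ) ^ 2 := by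
    have : 1 ≤ (Matrix.of C).det ^ 2 := by
      have := Int.one_le_abs h4
      nlinarith [sq_abs (Matrix.of C).det]
    exact_mod_cast this
  exact ⟨by nlinarith [gd_nonneg w], gd_ne_zero.1 (right_ne_zero_of_mul h2)⟩

theorem gd_succ {k : ℕ} (v : Fin (k + 1) → E) :
    gd v = ‖v 0‖ ^ 2 * gd fun j : Fin k => SL.pr (Submodule.span ℝ {v 0}) (v j.succ) := by
  have e : gd v = gd (Sum.elim (fun _ : Unit => v 0) (fun j : Fin k => v j.succ)) := by
    let e : Unit ⊕ Fin k ≃ Fin (k + 1) :=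
      (Equiv.sumComm _ _).trans ((Equiv.optionEquivSumPUnit (Fin k)).symm.trans (finSuccEquiv k).symm)
    rw [← gd_equiv e v]
    congr 1
    funext a
    rcases a with u | j <;> simp [e]
  rw [e, gd_elim, gd_unique, Set.range_const]

theorem discrete {k : ℕ} {v : Fin k → E} (hv : LinearIndependent ℝ v) :
    ∃ m : ℝ, 0 < m ∧ ∀ x ∈ Submodule.span ℤ (Set.range v), x ≠ 0 → m ≤ ‖x‖ ^ 2 := by
  obtain ⟨c, hc, h⟩ := exists_qf_ge (Matrix.posDef_gram_of_linearIndependent hv)
  refine ⟨c, hc, fun x hx h0 => ?_⟩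
  obtain ⟨z, rfl⟩ := mem_iff.1 hx
  have h1 := h (rc z)
  have h2 : qf (gram ℝ v) (rc z) = ‖∑ i, (z i : ℝ) • v i‖ ^ 2 := by
    have := Matrix.star_dotProduct_gram_mulVec (𝕜 := ℝ) v (rc z) (rc z)
    rw [star_trivial, real_inner_self_eq_norm_sq] at this
    exact this
  obtain ⟨i, hi⟩ : ∃ i, z i ≠ 0 := by
    by_contra h'
    push Not at h'
    exact h0 (by simp [h'])
  have h3 : (1 : ℝ) ≤ ‖rc z‖ := by
    refine le_trans ?_ (norm_le_pi_norm (rc z) i)
    have : (1 : ℝ) ≤ |(z i : ℝ)| := by exact_mod_cast Int.one_le_abs hi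
    exact this
  rw [← h2]
  have h4 : 1 ≤ ‖rc z‖ ^ 2 := one_le_pow₀ h3
  nlinarith

/-- a basis containing a divisor of a given vector -/
theorem ext_basis {k : ℕ} (v : Fin (k + 1) → E) {x : E} (hx : x ∈ Submodule.span ℤ (Set.range v))
    (h0 : x ≠ 0) : ∃ w : Fin (k + 1) → E,
      Submodule.span ℤ (Set.range w) = Submodule.span ℤ (Set.range v) ∧ ‖w 0‖ ≤ ‖x‖ := by
  obtain ⟨z, rfl⟩ := mem_iff.1 hx
  have hz : z ≠ 0 := by rintro rfl; exact h0 (by simp)
  obtain ⟨r, o, hro, bO, bN, a, ha⟩ := (Submodule.span ℤ {z}).exists_smith_normal_form_of_le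
    (Pi.basisFun ℤ (Fin (k + 1))) ⊤ le_top
  have ho : o = k + 1 := by
    have := finrank_eq_card_basis bO
    simpa using this.symm
  have hr : r = 1 := by
    have := finrank_eq_card_basis bN
    rw [← (LinearEquiv.toSpanNonzeroSingleton ℤ _ z hz).finrank_eq, finrank_self] at this
    simpa using this.symm
  subst ho hr
  let φ : (Fin (k + 1) → ℤ) →ₗ[ℤ] E := Fintype.linearCombination ℤ v
  have hφ : ∀ c, φ c = ∑ i, (c i : ℝ) • v i := fun c => by
    simp [φ, Fintype.linearCombination_apply, Int.cast_smul_eq_zsmul]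
  refine ⟨fun j => φ (bO j), le_antisymm (Submodule.span_le.2 ?_) (Submodule.span_le.2 ?_), ?_⟩
  · rintro _ ⟨j, rfl⟩; exact mem_iff.2 ⟨_, (hφ _).symm⟩
  · rintro _ ⟨i, rfl⟩
    have h1 := congrArg (fun y : (⊤ : Submodule ℤ (Fin (k + 1) → ℤ)) => φ y)
      (bO.sum_repr ⟨Pi.single i 1, trivial⟩)
    simp only [Submodule.coe_sum, Submodule.coe_smul_of_tower, map_sum, map_smul] at h1
    have h2 : φ (Pi.single i 1) = v i := by simp [φ]
    rw [← h2, ← h1]
    exact Submodule.sum_mem _ fun j _ => Submodule.smul_mem _ _ (Submodule.subset_span ⟨j, rfl⟩)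
  · have h1 := congrArg Subtype.val (bN.sum_repr ⟨z, Submodule.mem_span_singleton_self z⟩)
    simp only [Finset.univ_unique, Finset.sum_singleton, Submodule.coe_smul_of_tower, ha,
      smul_smul] at h1
    set t := bN.repr ⟨z, Submodule.mem_span_singleton_self z⟩ default * a default
    have ht : t ≠ 0 := fun h => hz (by rw [← h1, h, zero_smul])
    have h2 : Fin.castLE hro default = 0 := rfl
    rw [← hφ, ← h1, h2, map_smul, ← Int.cast_smul_eq_zsmul ℝ, norm_smul]
    have : (1 : ℝ) ≤ |(t : ℝ)| := by exact_mod_cast Int.one_le_abs ht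
    exact le_mul_of_one_le_left (norm_nonneg _) this

theorem herm : ∀ (k : ℕ) (v : Fin k → E), LinearIndependent ℝ v → ∃ w : Fin k → E,
    Submodule.span ℤ (Set.range w) = Submodule.span ℤ (Set.range v) ∧
      ∏ j, ‖w j‖ ^ 2 ≤ 2 ^ (k ^ 2) * gd v
  | 0, v, _ => ⟨v, rfl, by simp [gd_empty]⟩
  | k + 1, v, hv => by
    let S : Set ℝ := {t | ∃ y ∈ Submodule.span ℤ (Set.range v), y ≠ 0 ∧ t = ‖y‖ ^ 2}
    have hSne : S.Nonempty := ⟨_, v 0, Submodule.subset_span ⟨0, rfl⟩, hv.ne_zero 0, rfl⟩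
    obtain ⟨m0, hm00, hm0'⟩ := discrete hv
    have hlb : ∀ t ∈ S, m0 ≤ t := by rintro _ ⟨y, hy, h, rfl⟩; exact hm0' y hy h
    have hbdd : BddBelow S := ⟨_, hlb⟩
    set m := sInf S with hm
    have hm0 : 0 < m := lt_of_lt_of_le hm00 (le_csInf hSne hlb)
    obtain ⟨_, ⟨y1, hy1, h1, rfl⟩, hlt⟩ := exists_lt_of_csInf_lt hSne (by linarith : m < 9 / 8 * m)
    obtain ⟨w, hw, hw0⟩ := ext_basis v hy1 h1
    obtain ⟨hgd, hli⟩ := gd_le (v := v) (w := w) (fun i => hw ▸ Submodule.subset_span ⟨i, rfl⟩) hv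
    have hw0' : ‖w 0‖ ^ 2 ≤ 9 / 8 * m := (pow_le_pow_left₀ (norm_nonneg _) hw0 2).trans hlt.le
    set U := Submodule.span ℝ {w 0}
    have hs := gd_succ w
    have hli' : LinearIndependent ℝ fun j : Fin k => SL.pr U (w j.succ) := by
      rw [← gd_ne_zero]
      exact right_ne_zero_of_mul (hs ▸ gd_ne_zero.2 hli)
    obtain ⟨x, hx, hpr⟩ := herm k _ hli'
    obtain ⟨-, hxli⟩ := gd_le (w := x) (fun i => hx ▸ Submodule.subset_span ⟨i, rfl⟩) hli'
    choose c hc using fun j => mem_iff.1 (hx ▸ Submodule.subset_span ⟨j, rfl⟩ :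
      x j ∈ Submodule.span ℤ (Set.range fun j : Fin k => SL.pr U (w j.succ)))
    let y : Fin k → E := fun j => ∑ l, (c j l : ℝ) • w l.succ
    have hy : ∀ j, SL.pr U (y j) = x j := fun j => by simp only [y, map_sum, map_smul, hc]
    choose α hα using fun j => Submodule.mem_span_singleton.1 (sub_pr_mem U (y j))
    let y2 : Fin k → E := fun j => y j - ((round (α j) : ℤ) : ℝ) • w 0
    have hw00 : SL.pr U (w 0) = 0 := pr_eq_zero.2 (Submodule.mem_span_singleton_self _)
    have hy2 : ∀ j, y2 j = x j + (α j - round (α j)) • w 0 := fun j => by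
      simp only [y2, sub_smul, hα, hy]; abel
    have hpy2 : ∀ j, SL.pr U (y2 j) = x j := fun j => by
      simp only [y2, map_sub, map_smul, hw00, smul_zero, sub_zero, hy]
    have hy2M : ∀ j, y2 j ∈ Submodule.span ℤ (Set.range w) := fun j => by
      refine Submodule.sub_mem _ (Submodule.sum_mem _ fun l _ => ?_) ?_ <;>
        rw [Int.cast_smul_eq_zsmul] <;> exact Submodule.smul_mem _ _ (Submodule.subset_span ⟨_, rfl⟩)
    have hbd : ∀ j, ‖y2 j‖ ^ 2 ≤ 2 * ‖x j‖ ^ 2 := fun j => by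
      have e1 : m ≤ ‖y2 j‖ ^ 2 := csInf_le hbdd ⟨_, hw ▸ hy2M j, fun h => hxli.ne_zero j (by
        rw [← hpy2, h, map_zero]), rfl⟩
      have e0 : ⟪x j, w 0⟫_ℝ = 0 := by
        rw [← hy]
        exact Submodule.inner_left_of_mem_orthogonal (Submodule.mem_span_singleton_self _) (pr_mem U _)
      have e2 : ‖y2 j‖ ^ 2 = ‖x j‖ ^ 2 + (α j - round (α j)) ^ 2 * ‖w 0‖ ^ 2 := by
        rw [hy2, norm_add_sq_real, inner_smul_right, e0, norm_smul, mul_pow, Real.norm_eq_abs,
          sq_abs]; ring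
      have e3 : (α j - round (α j)) ^ 2 ≤ 1 / 4 := by
        have := abs_sub_round (α j)
        have h' := abs_nonneg (α j - round (α j))
        nlinarith [sq_abs (α j - round (α j))]
      have e4 : (α j - round (α j)) ^ 2 * ‖w 0‖ ^ 2 ≤ 1 / 4 * (9 / 8 * m) :=
        mul_le_mul e3 hw0' (by positivity) (by norm_num)
      linarith
    refine ⟨Fin.cons (w 0) y2, ?_, ?_⟩
    · rw [← hw]
      refine le_antisymm (Submodule.span_le.2 ?_) (Submodule.span_le.2 ?_)
      · rintro _ ⟨j, rfl⟩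
        exact Fin.cases (Submodule.subset_span ⟨0, rfl⟩) hy2M j
      · rintro _ ⟨l, rfl⟩
        refine Fin.cases (Submodule.subset_span ⟨0, rfl⟩) (fun l => ?_) l
        obtain ⟨b, hb⟩ := mem_iff.1 (hx ▸ Submodule.subset_span ⟨l, rfl⟩ :
          SL.pr U (w l.succ) ∈ Submodule.span ℤ (Set.range x))
        have e1 : w l.succ - ∑ j, (b j : ℝ) • y2 j ∈ U := by
          rw [← pr_eq_zero, map_sub, map_sum, ← hb]; simp only [map_smul, hpy2, sub_self]
        obtain ⟨β, hβ⟩ := Submodule.mem_span_singleton.1 e1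
        obtain ⟨g, hg⟩ := mem_iff.1 (show w l.succ - ∑ j, (b j : ℝ) • y2 j ∈
            Submodule.span ℤ (Set.range w) from
          Submodule.sub_mem _ (Submodule.subset_span ⟨_, rfl⟩) (Submodule.sum_mem _ fun j _ => by
            rw [Int.cast_smul_eq_zsmul]; exact Submodule.smul_mem _ _ (hy2M j)))
        have e2 : (g 0 : ℝ) - β = 0 := by
          have := Fintype.linearIndependent_iff.1 hli (fun i => (g i : ℝ) - (Pi.single 0 β : Fin (k + 1) → ℝ) i) (by
            simp only [sub_smul, Finset.sum_sub_distrib, hg, ← hβ]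
            simp [Pi.single_apply]) 0
          simpa using this
        refine mem_iff.2 ⟨Fin.cons (g 0) b, ?_⟩
        rw [Fin.sum_univ_succ]
        simp only [Fin.cons_zero, Fin.cons_succ]
        rw [sub_eq_zero.1 e2, hβ]; abel
    · rw [Fin.prod_univ_succ]
      simp only [Fin.cons_zero, Fin.cons_succ]
      have e1 : ∏ j, ‖y2 j‖ ^ 2 ≤ 2 ^ k * ∏ j, ‖x j‖ ^ 2 := by
        have : (2 : ℝ) ^ k = ∏ _j : Fin k, 2 := by simp
        rw [this, ← Finset.prod_mul_distrib]
        exact Finset.prod_le_prod (fun _ _ => sq_nonneg _) fun j _ => hbd j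
      have e4 : (2 : ℝ) ^ k * 2 ^ (k ^ 2) ≤ 2 ^ ((k + 1) ^ 2) := by
        rw [← pow_add]
        exact pow_le_pow_right₀ (by norm_num) (by nlinarith)
      calc ‖w 0‖ ^ 2 * ∏ j, ‖y2 j‖ ^ 2
          ≤ ‖w 0‖ ^ 2 * (2 ^ k * (2 ^ (k ^ 2) * gd fun j : Fin k => SL.pr U (w j.succ))) :=
            mul_le_mul_of_nonneg_left (e1.trans (mul_le_mul_of_nonneg_left hpr (by positivity)))
              (sq_nonneg _)
        _ = 2 ^ k * 2 ^ (k ^ 2) * gd w := by rw [hs]; ring
        _ ≤ _ := mul_le_mul e4 hgd (gd_nonneg _) (by positivity)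

end HB

open scoped MatrixOrder in
theorem stHB : StHB := by
  intro d
  refine ⟨2 ^ (d ^ 2), by positivity, fun Q s T hs hT hQ hsl hdet => ?_⟩
  obtain ⟨B, hB⟩ : ∃ B : Matrix (Fin d) (Fin d) ℝ, Q = Bᵀ * B := by
    obtain ⟨B, hB⟩ := CStarAlgebra.nonneg_iff_eq_star_mul_self.1 hQ.posSemidef.nonneg
    exact ⟨B, by simpa [star_eq_conjTranspose] using hB⟩
  let v : Fin d → EuclideanSpace ℝ (Fin d) := fun i => WithLp.toLp 2 fun r => B r i
  have hg : gram ℝ v = Q := by
    ext i j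
    simp [v, hB, PiLp.inner_apply, mul_apply, mul_comm]
  have hv : LinearIndependent ℝ v := Matrix.linearIndependent_of_posDef_gram (hg ▸ hQ)
  obtain ⟨w, hw, hpr⟩ := HB.herm d v hv
  choose a ha using fun j => HB.mem_iff.1 (hw ▸ Submodule.subset_span ⟨j, rfl⟩ :
    w j ∈ Submodule.span ℤ (Set.range v))
  choose b hb using fun j => HB.mem_iff.1 (hw ▸ Submodule.subset_span ⟨j, rfl⟩ :
    v j ∈ Submodule.span ℤ (Set.range w))
  have hab : Matrix.of b * Matrix.of a = 1 := by
    ext i l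
    have := Fintype.linearIndependent_iff.1 hv
      (fun l => (((Matrix.of b * Matrix.of a) i l : ℤ) : ℝ) - (Pi.single i 1 : Fin d → ℝ) l) (by
        simp only [sub_smul, Finset.sum_sub_distrib, mul_apply, of_apply]
        push_cast
        simp only [Finset.sum_smul, mul_smul]
        rw [Finset.sum_comm]
        simp only [← Finset.smul_sum, ha, hb]
        simp [Pi.single_apply]) l
    rw [sub_eq_zero, Pi.single_apply] at this
    rw [one_apply]
    by_cases h : i = l
    · subst h; simp only [if_true] at this ⊢; exact_mod_cast this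
    · rw [if_neg (Ne.symm h)] at this; rw [if_neg h]; exact_mod_cast this
  have hq : ∀ j, qf Q (rc (a j)) = ‖w j‖ ^ 2 := fun j => by
    have := Matrix.star_dotProduct_gram_mulVec (𝕜 := ℝ) v (rc (a j)) (rc (a j))
    rw [star_trivial, real_inner_self_eq_norm_sq, hg] at this
    rw [← ha j]; exact this
  obtain ⟨-, hwli⟩ := HB.gd_le (w := w) (fun i => hw ▸ Submodule.subset_span ⟨i, rfl⟩) hv
  have hlow : ∀ j, s ^ 2 ≤ ‖w j‖ ^ 2 := fun j => by
    have := hsl 1 (Matrix.of fun i _ => a j i) (linearIndependent_unique_iff.2 fun h => by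
      refine hwli.ne_zero j ?_
      rw [← ha j]
      exact Finset.sum_eq_zero fun i _ => by
        have : (a j i : ℝ) = 0 := congrFun h i
        rw [this, zero_smul])
    rw [det_unique, mul_one] at this
    rw [← hq]
    refine this.trans (le_of_eq ?_)
    simp only [qf, dotProduct, mulVec, mul_apply, transpose_apply, rm, rc, map_apply, of_apply,
      Finset.sum_mul, Finset.mul_sum]
    rw [Finset.sum_comm]
    exact Finset.sum_congr rfl fun _ _ => Finset.sum_congr rfl fun _ _ => by ring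
  refine ⟨(Matrix.of a)ᵀ, ?_, fun j => ?_⟩
  · rw [det_transpose]
    exact IsUnit.of_mul_eq_one_right (Matrix.of b).det (by rw [← det_mul, hab, det_one])
  · have e0 : ((rm (Matrix.of a)ᵀ)ᵀ * Q * rm (Matrix.of a)ᵀ) j j = ‖w j‖ ^ 2 := by
      rw [← hq]
      simp only [qf, dotProduct, mulVec, mul_apply, transpose_apply, rm, rc, map_apply, of_apply,
        Finset.sum_mul, Finset.mul_sum]
      rw [Finset.sum_comm]
      exact Finset.sum_congr rfl fun _ _ => Finset.sum_congr rfl fun _ _ => by ring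
    rw [e0]
    have hd : 1 ≤ d := by have := j.2; omega
    have e1 := Finset.mul_prod_erase Finset.univ (fun j => ‖w j‖ ^ 2) (Finset.mem_univ j)
    have e2 : s ^ (2 * (d - 1)) ≤ ∏ i ∈ Finset.univ.erase j, ‖w i‖ ^ 2 := by
      have := Finset.prod_le_prod (s := Finset.univ.erase j) (f := fun _ => s ^ 2)
        (fun _ _ => sq_nonneg _) fun i _ => hlow i
      simpa [pow_mul] using this
    have e3 := hdet (d - 1) (by omega)
    rw [show d - (d - 1) = 1 by omega, mul_one] at e3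
    have e4 : SL.gd v = Q.det := by rw [SL.gd, hg]
    have e5 : ‖w j‖ ^ 2 * s ^ (2 * (d - 1)) ≤ 2 ^ (d ^ 2) * T ^ 2 * s ^ (2 * (d - 1)) := by
      calc _ ≤ ‖w j‖ ^ 2 * ∏ i ∈ Finset.univ.erase j, ‖w i‖ ^ 2 :=
            mul_le_mul_of_nonneg_left e2 (sq_nonneg _)
        _ ≤ 2 ^ (d ^ 2) * (s ^ (2 * (d - 1)) * T ^ 2) := by
            rw [e1]
            exact hpr.trans (by rw [e4]; exact mul_le_mul_of_nonneg_left e3 (by positivity))
        _ = _ := by ring
    exact le_of_mul_le_mul_right e5 (by positivity)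

end Crest.Agent.R152
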