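import Crest.Agent.R152.W.Basic
import Crest.Agent.R152.W.Gauss

set_option autoImplicit false
open Matrix Filter MeasureTheory

namespace Crest.Agent.R152

variable {d : ℕ}

theorem wrm_cont (P : Matrix (Fin d) (Fin d) ℝ) : Continuous (qf P) := by
  unfold qf
  fun_prop

/-- periodisation over the unit cube -/
theorem wrm_per {φ g : (Fin d → ℝ) → ℝ} (hφ : Continuous φ) (hg : Continuous g) (φ0 : ∀ θ, 0 ≤ φ θ)
    (g0 : ∀ θ, 0 ≤ g θ) (hi : Integrable fun θ => φ θ * g θ) (hper : ∀ θ (y : Fin d → ℤ), g (θ + rc y) = g θ)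
    {c : ℝ} (hc : ∀ θ (Y : Finset (Fin d → ℤ)), ∑ y ∈ Y, φ (θ + rc y) ≤ c) :
    ∫ θ, φ θ * g θ ≤ c * ∫ θ in Set.Icc (0 : Fin d → ℝ) 1, g θ := by
  have hF := ZSpan.isAddFundamentalDomain' (Pi.basisFun ℝ (Fin d)) (volume : Measure (Fin d → ℝ))
  have hz : ∀ x : (Submodule.span ℤ (Set.range (Pi.basisFun ℝ (Fin d)))).toAddSubgroup,
      ∃ y : Fin d → ℤ, rc y = x := fun x => by
    choose y hy using ((Pi.basisFun ℝ (Fin d)).mem_span_iff_repr_mem ℤ (x : Fin d → ℝ)).1 x.2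
    exact ⟨y, funext fun i => by simpa [rc] using hy i⟩
  choose κ hκ using hz
  have hinj : Function.Injective κ := fun x x' h => Subtype.ext (by rw [← hκ, ← hκ, h])
  have : Countable (Submodule.span ℤ (Set.range (Pi.basisFun ℝ (Fin d)))).toAddSubgroup := hinj.countable
  have hae : (Set.univ.pi fun _ : Fin d => Set.Ico (0 : ℝ) 1) =ᵐ[volume] Set.Icc (0 : Fin d → ℝ) 1 :=
    Measure.univ_pi_Ico_ae_eq_Icc (f := fun _ => (0 : ℝ)) (g := fun _ => 1)
  rw [hF.integral_eq_tsum'' _ hi, ZSpan.fundamentalDomain_pi_basisFun, Measure.restrict_congr_set hae]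
  have hK : IsCompact (Set.Icc (0 : Fin d → ℝ) 1) := isCompact_Icc
  refine Real.tsum_le_of_sum_le (fun x => integral_nonneg fun θ => mul_nonneg (φ0 _) (g0 _)) fun S => ?_
  have e : ∀ (x : (Submodule.span ℤ (Set.range (Pi.basisFun ℝ (Fin d)))).toAddSubgroup) (θ : Fin d → ℝ),
      x +ᵥ θ = θ + rc (κ x) := fun x θ => by rw [hκ, add_comm]; rfl
  simp only [e, hper]
  have hI : ∀ x, IntegrableOn (fun θ => φ (θ + rc (κ x)) * g θ) (Set.Icc (0 : Fin d → ℝ) 1) := fun x =>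
    (Continuous.continuousOn (by fun_prop)).integrableOn_compact hK
  change ∑ x ∈ S, ∫ θ in Set.Icc (0 : Fin d → ℝ) 1, φ (θ + rc (κ x)) * g θ ≤ _
  rw [← integral_finsetSum _ fun x _ => hI x, ← integral_const_mul]
  refine integral_mono (integrable_finsetSum _ fun x _ => hI x)
    ((hg.continuousOn.integrableOn_compact hK).const_mul c) fun θ => ?_
  simp only [← Finset.sum_mul]
  refine mul_le_mul_of_nonneg_right ?_ (g0 θ)
  have := hc θ (S.image κ)
  rwa [Finset.sum_image fun x _ x' _ h => hinj h] at this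

theorem wrm_cos_per (z y : Fin d → ℤ) (θ : Fin d → ℝ) :
    Real.cos ((2 * Real.pi) • rc z ⬝ᵥ (θ + rc y)) = Real.cos ((2 * Real.pi) • rc z ⬝ᵥ θ) := by
  have : (2 * Real.pi) • rc z ⬝ᵥ rc y = ((z ⬝ᵥ y : ℤ) : ℝ) * (2 * Real.pi) := by
    rw [smul_dotProduct, smul_eq_mul, mul_comm]
    simp [dotProduct, rc]
  rw [dotProduct_add, this, Real.cos_add_int_mul_two_pi]

theorem wrm_cos_cube (z : Fin d → ℤ) :
    ∫ θ in Set.Icc (0 : Fin d → ℝ) 1, Real.cos ((2 * Real.pi) • rc z ⬝ᵥ θ) = if z = 0 then 1 else 0 := by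
  split_ifs with hz
  · have : rc z = 0 := by rw [hz]; ext i; simp [rc]
    simp [this, Measure.real, Real.volume_Icc_pi]
  · obtain ⟨j, hj⟩ := Function.ne_iff.1 hz
    have hj' : (z j : ℝ) ≠ 0 := by exact_mod_cast hj
    have h := integral_cube_shift (fun θ => Real.cos ((2 * Real.pi) • rc z ⬝ᵥ θ)) (by fun_prop)
      (fun x y => wrm_cos_per z y x) (Pi.single j (1 / (2 * z j)))
    have e : (2 * Real.pi) • rc z ⬝ᵥ Pi.single j (1 / (2 * (z j : ℝ))) = Real.pi := by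
      rw [dotProduct_single, Pi.smul_apply, smul_eq_mul, rc]
      field_simp
    simp only [dotProduct_add, e, Real.cos_add_pi, integral_neg] at h
    linarith

/-- the counting bound -/
theorem wrm_count (hC : StCosh) {Q : Matrix (Fin d) (Fin d) ℝ} (hQ : Q.PosDef) (Y : Finset (Fin d → ℤ)) {a : ℝ}
    (hY : ∀ y ∈ Y, ∀ y' ∈ Y, qf Q (rc (y - y')) ≤ a) :
    (Y.card : ℝ) ≤ Real.exp (2 * Real.pi ^ 2 * a + gq Q⁻¹ / 2) := by
  have hP := hQ.inv
  have hd := hP.det_pos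
  set c := √(2 * Real.pi) ^ d / √Q⁻¹.det with hc
  have c0 : 0 < c := by positivity
  set g : (Fin d → ℝ) → ℝ := fun θ => ∑ y ∈ Y, ∑ y' ∈ Y, Real.cos ((2 * Real.pi) • rc (y - y') ⬝ᵥ θ) with hg
  have g0 : ∀ θ, 0 ≤ g θ := fun θ => by
    have e : ∀ y y' : Fin d → ℤ, rc (y - y') = rc y - rc y' := fun y y' => by ext i; simp [rc]
    have : g θ = (∑ y ∈ Y, Real.cos ((2 * Real.pi) • rc y ⬝ᵥ θ)) ^ 2 +
        (∑ y ∈ Y, Real.sin ((2 * Real.pi) • rc y ⬝ᵥ θ)) ^ 2 := by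
      simp only [hg, e, smul_sub, sub_dotProduct, Real.cos_sub, Finset.sum_add_distrib, sq, Finset.sum_mul_sum]
    rw [this]
    positivity
  have hI : ∀ z : Fin d → ℝ, Integrable fun θ => Real.exp (-(qf Q⁻¹ θ) / 2) * Real.cos (z ⬝ᵥ θ) := fun z =>
    (gauss_integrable hP).mul_bdd (c := 1) (Continuous.aestronglyMeasurable (by fun_prop))
      (Eventually.of_forall fun θ => Real.abs_cos_le_one _)
  have e1 : (fun θ => Real.exp (-(qf Q⁻¹ θ) / 2) * g θ) = fun θ => ∑ y ∈ Y, ∑ y' ∈ Y,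
      Real.exp (-(qf Q⁻¹ θ) / 2) * Real.cos ((2 * Real.pi) • rc (y - y') ⬝ᵥ θ) := by
    simp only [hg, Finset.mul_sum]
  have hq := wrm_cont Q⁻¹
  have h := wrm_per (φ := fun θ => Real.exp (-(qf Q⁻¹ θ) / 2)) (g := g) (by fun_prop) (by fun_prop)
    (fun θ => (Real.exp_pos _).le) g0
    (by rw [e1]; exact integrable_finsetSum _ fun y _ => integrable_finsetSum _ fun y' _ => hI _)
    (fun θ y => by simp only [hg, wrm_cos_per]) (hC d Q⁻¹ hP)
  have hK : IsCompact (Set.Icc (0 : Fin d → ℝ) 1) := isCompact_Icc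
  have hJ : ∀ z : Fin d → ℝ, IntegrableOn (fun θ => Real.cos (z ⬝ᵥ θ)) (Set.Icc (0 : Fin d → ℝ) 1) := fun z =>
    (Continuous.continuousOn (by fun_prop)).integrableOn_compact hK
  have e2 : ∫ θ in Set.Icc (0 : Fin d → ℝ) 1, g θ = Y.card := by
    rw [hg, integral_finsetSum _ fun y _ => integrable_finsetSum _ fun y' _ => hJ _, Finset.card_eq_sum_ones,
      Nat.cast_sum]
    refine Finset.sum_congr rfl fun y hy => ?_
    rw [integral_finsetSum _ fun y' _ => hJ _]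
    simp only [wrm_cos_cube]
    simp [sub_eq_zero, hy]
  have e3 : (Y.card : ℝ) * (Y.card * (c * Real.exp (-(2 * Real.pi ^ 2 * a)))) ≤
      ∫ θ, Real.exp (-(qf Q⁻¹ θ) / 2) * g θ := by
    rw [e1, integral_finsetSum _ fun y _ => integrable_finsetSum _ fun y' _ => hI _, ← nsmul_eq_mul]
    refine Finset.card_nsmul_le_sum _ _ _ fun y hy => ?_
    rw [integral_finsetSum _ fun y' _ => hI _, ← nsmul_eq_mul]
    refine Finset.card_nsmul_le_sum _ _ _ fun y' hy' => ?_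
    rw [gauss_cos hP, nonsing_inv_nonsing_inv _ hQ.det_pos.ne'.isUnit]
    refine mul_le_mul_of_nonneg_left (Real.exp_le_exp.2 ?_) c0.le
    have e : qf Q ((2 * Real.pi) • rc (y - y')) = 4 * Real.pi ^ 2 * qf Q (rc (y - y')) := by
      rw [qf, qf, mulVec_smul, smul_dotProduct, dotProduct_smul, smul_eq_mul, smul_eq_mul]
      ring
    have := mul_le_mul_of_nonneg_left (hY y hy y' hy') (by positivity : 0 ≤ 2 * Real.pi ^ 2)
    rw [e]
    linarith
  rw [e2] at h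
  rcases Nat.eq_zero_or_pos Y.card with h0 | h0
  · rw [h0, Nat.cast_zero]
    positivity
  have h1 : (0 : ℝ) < Y.card := by exact_mod_cast h0
  have h2 : Y.card * c * (Y.card * Real.exp (-(2 * Real.pi ^ 2 * a))) ≤ Y.card * c * Real.exp (gq Q⁻¹ / 2) := by
    linarith
  have h3 := le_of_mul_le_mul_left h2 (mul_pos h1 c0)
  rwa [Real.exp_neg, mul_inv_le_iff₀ (Real.exp_pos _), ← Real.exp_add, add_comm] at h3

end Crest.Agent.R152
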